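import Vale.Agent.P141.H124.AffUp
import Vale.Agent.P141.H677.SlotR
import Vale.Agent.P141.H460.PBle

/-!
# P141, line (A): the fields `af`, `afL` of `H677.Sk.NumR`

* `kF_line`, `kF_dead`, `v_mass` : class data;
* `af_all` : the mean slot of any scale `σ k ≥ k` at the points of a packed family of cubes, from
  the deviations `DS` and the energy at the end `EE`.
-/

namespace Vale.Agent.P141.H124

open Finset Matrix
open Vale.Agent.P141.PL (Pt iv ix cb cx mem_iv mem_cb card_iv card_cb ix_ix)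
open Vale.Agent.P141.PL.H315 (Tri A2)
open Vale.Agent.P141.H43 (nsq nsq_nonneg)
open Vale.Agent.P141.H48 (BSl sst)
open Vale.Agent.P141.H460 (GPack)
open Vale.Agent.P141.H576 (Dd_sst)
open Vale.Agent.P141.H677.Sk (Slt FamA FamV FDs av av_Rs)
open Vale.Agent.P141.H677 (kF MT KT rt)
open Vale.Agent.P141.H841 (Rm Rs)

noncomputable section

open scoped Classical

set_option linter.unusedSectionVars false

variable {ι : Type} [Fintype ι] [DecidableEq ι]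

variable {q : H401.Num} {n : ℕ} {ez : ℝ} {F1 F2 F3 : ℕ → Pt → ℝ} {K : ℕ} {x : Pt} {s r : ℝ}
  {U : Tri} {g : ℤ → ℤ → ℝ} {u v : ℤ → ℤ → ι → ℝ} {A : FamA} {b C : FamV ι}
  {Q1 Q2 Q3 : ℕ → Pt → Prop} {v' : ℤ → ℤ → ι → ℝ}

theorem card_rt3 (M : Pt) : ((rt M).card : ℝ) = 3 := by
  rw [H460.card_rt]
  norm_num

/-- line energies of the stopped input -/
theorem kF_line {Λ : ℝ} {a : ℤ × ℤ → ℝ} (hB : BSl n ez q.cP F2 Q2) (hK : K ≤ n)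
    {k : ℕ} (hk : k < K) (m x1 x3 : ℤ) :
    ∑ x0 ∈ iv k m, kF Λ a K F2 (k + 1) (x0, x1, x3) ^ 2 ≤ ez * 2 ^ k := by
  refine le_trans (sum_le_sum fun x0 _ => ?_) (hB.l0 k (by omega) m x1 x3)
  unfold H677.kF
  by_cases h : k + 1 = 0 ∨ sst Λ a K (k + 1) x1 x3
  · rw [if_pos h]
    have := sq_nonneg (F2 (k + 1) (x0, x1, x3))
    simpa using this
  · rw [if_neg h]

/-- the dead points -/
theorem kF_dead {Λ : ℝ} {a : ℤ × ℤ → ℝ} {k : ℕ} {x0 x1 x3 : ℤ} (h : sst Λ a K k x1 x3) :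
    kF Λ a K F2 k (x0, x1, x3) = 0 := by
  unfold H677.kF
  rw [if_pos (Or.inr h)]

theorem v'_le (D : FDs q n ez F1 F2 F3 K x s r U g u v A b C Q1 Q2 Q3 v')
    (hv : ∀ z ∈ iv K (ix K x.1), ∀ y ∈ iv K (ix K x.2.2), v z y ⬝ᵥ v z y ≤ U.2.1 (z, y) ^ 2)
    {z y : ℤ} (hz : z ∈ iv K (ix K x.1)) (hy : y ∈ iv K (ix K x.2.2)) :
    nsq (v' z y) ≤ U.2.1 (z, y) ^ 2 := by
  rcases D.v_or z y with h | h
  · rw [h]
    exact hv z hz y hy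
  · rw [h]
    have := sq_nonneg (U.2.1 (z, y))
    unfold H43.nsq
    simpa using this

/-- the mass of a live square -/
theorem v_mass (D : FDs q n ez F1 F2 F3 K x s r U g u v A b C Q1 Q2 Q3 v')
    (hv : ∀ z ∈ iv K (ix K x.1), ∀ y ∈ iv K (ix K x.2.2), v z y ⬝ᵥ v z y ≤ U.2.1 (z, y) ^ 2)
    (hv2 : A2 K U.2.1 x.1 x.2.2 ≤ s) (hLm : 0 ≤ q.Lm) {k : ℕ} (hk : k < K) {x1 x3 : ℤ}
    (h1 : x1 ∈ iv K (ix K x.1)) (h3 : x3 ∈ iv K (ix K x.2.2))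
    (hl : ¬ sst q.Lm U.2.1 K (k + 1) x1 x3) :
    ∑ y1 ∈ iv k (ix k x1), ∑ y3 ∈ iv k (ix k x3), nsq (v' y1 y3) ≤ 4 * q.Lm * s * 4 ^ k := by
  have up : ∀ {z w : ℤ}, z ∈ iv K (ix K w) → ∀ y ∈ iv k (ix k z), y ∈ iv K (ix K w) := by
    intro z w hz y hy
    rw [mem_iv] at hz hy ⊢
    rw [← hz]
    exact H677.ix_le hk.le hy
  refine (sum_le_sum fun y1 hy1 => sum_le_sum fun y3 hy3 =>
    v'_le D hv (up h1 y1 hy1) (up h3 y3 hy3)).trans ?_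
  refine (H460.alive_mass' (b := 1) (by simp) hk hl hLm).trans ?_
  have h5 : A2 K U.2.1 x1 x3 ≤ s := by
    refine le_trans (le_of_eq ?_) hv2
    refine PL.H990.A2_congr U.2.1 ?_ ?_
    · exact h1
    · exact h3
  refine mul_le_mul_of_nonneg_right ?_ (by positivity)
  exact mul_le_mul_of_nonneg_left h5 (by positivity)

/-- **The mean slot of the scale `σ k` at the points over a packed family of cubes.** -/
theorem af_all (D : FDs q n ez F1 F2 F3 K x s r U g u v A b C Q1 Q2 Q3 v') (hKn : K ≤ n)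
    (hez : 0 ≤ ez) (hLm : 0 ≤ q.Lm) (hs : 0 ≤ s)
    (hv : ∀ z ∈ iv K (ix K x.1), ∀ y ∈ iv K (ix K x.2.2), v z y ⬝ᵥ v z y ≤ U.2.1 (z, y) ^ 2)
    (hv2 : A2 K U.2.1 x.1 x.2.2 ≤ s) {o : ℤ} {l κ : ℝ} {R : Slt ι} {sx : ℤ → ℕ → ℤ → ℤ → ℝ}
    (hR : ∀ x0 j z x1, R x0 j z x1 = Rm (MT l (KT l u x1)) o x1 (sx x1) K j x0 z)
    (hcap : ∀ x0, ∀ j ≤ K, ∀ z x1 w, nsq (R x0 j z x1 *ᵥ w) ≤ κ ^ 2 * nsq w) (h : Pt)
    {S Q : ℕ → Pt → Prop} {P : ℝ} (hP : 0 ≤ P) (hQ : GPack Q K P)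
    (hS : ∀ k < K, ∀ y : Pt, S k y → Q k (cx k y)) (σ : ℕ → ℕ) (N : ℕ) (hN : N ≤ K)
    (hσ : ∀ k < N, k ≤ σ k ∧ σ k ≤ K) (L : ℕ) {EE DS : ℝ}
    (hE : ∑ t ∈ rt (cx K x), ∑ x1 ∈ iv K (cx K x).1, ∑ x3 ∈ iv K (cx K x).2.2, ∑ x0 ∈ iv K t,
      nsq (R x0 0 x3 x1 *ᵥ v' x1 x3) ≤ EE)
    (hDS : ∑ t ∈ rt (cx K x), ∑ x1 ∈ iv K (cx K x).1, ∑ x3 ∈ iv K (cx K x).2.2, ∑ k ∈ range N,
      ∑ x0 ∈ iv K t, kF q.Lm U.2.1 K F2 (k + 1) (x0, x1, x3) ^ 2 *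
        nsq ((av R h.2.2 x0 (σ k) x3 x1 - R x0 (σ k) x3 x1) *ᵥ v' x1 x3) ≤ DS) :
    ∑ t ∈ rt (cx K x), ∑ x0 ∈ iv K t, ∑ k ∈ range N, ∑ x' ∈ iv K (cx K x).1,
      ∑ z ∈ iv K (cx K x).2.2, (if S k (x0, x', z) then
        nsq (av R h.2.2 x0 (σ k) z x' *ᵥ C x0 (k + 1) z x') else 0) ≤
      (1 + P) * (2 * DS + 8 * (1 + 2 * L) * (ez * EE) +
        24 * (q.Lm * κ ^ 2) * (1 / 2) ^ L * (ez * s * 8 ^ K)) := by
  set M : Pt := cx K x with hM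
  set Mx : ℤ → ℕ → ℤ → Matrix ι ι ℝ := fun x1 => MT l (KT l u x1) with hMx
  set W : ℕ → ℤ → ℤ → ℤ → ℝ := fun k x0 x1 x3 => kF q.Lm U.2.1 K F2 (k + 1) (x0, x1, x3) ^ 2
    with hWd
  set Dp : ℕ → Pt → Prop := fun k m => sst q.Lm U.2.1 K (k + 1) (2 ^ k * m.2.1) (2 ^ k * m.2.2)
    with hDp
  have hDx : ∀ k (y : Pt), Dp k (cx k y) ↔ sst q.Lm U.2.1 K (k + 1) y.2.1 y.2.2 := by
    intro k y
    refine (Dd_sst q.Lm U.2.1 K).congr (k + 1) _ _ _ _ (H677.ix_le (Nat.le_succ k) ?_)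
      (H677.ix_le (Nat.le_succ k) ?_)
    · exact H677.ix_two k _
    · exact H677.ix_two k _
  have hav : ∀ x0 k z x1, av R h.2.2 x0 k z x1 =
      Rs (Mx x1) o x1 (sx x1) K h.2.2 k x0 (ix k (z - h.2.2)) := fun x0 k z x1 =>
    av_Rs hR h.2.2 x0 k z x1
  set hh : ℕ := ⌈2 * P⌉₊ + 1 with hhd
  have hh1 : 1 ≤ hh := by omega
  have hh2 : 2 * P ≤ hh := by
    have := Nat.le_ceil (2 * P)
    rw [hhd]
    push_cast
    linarith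
  have hh3 : (hh : ℝ) ≤ 2 * P + 2 := by
    have := Nat.ceil_lt_add_one (show 0 ≤ 2 * P by linarith)
    rw [hhd]
    push_cast
    linarith
  -- one root
  have one : ∀ t ∈ rt M, ∑ x1 ∈ iv K M.1, ∑ x3 ∈ iv K M.2.2, ∑ k ∈ range N, ∑ x0 ∈ iv K t,
      (if S k (x0, x1, x3) then W k x0 x1 x3 * nsq (Rs (Mx x1) o x1 (sx x1) K h.2.2 (σ k) x0
        (ix (σ k) (x3 - h.2.2)) *ᵥ v' x1 x3) else 0) ≤
      2 * (∑ x1 ∈ iv K M.1, ∑ x3 ∈ iv K M.2.2, ∑ k ∈ range N, ∑ x0 ∈ iv K t,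
        W k x0 x1 x3 * nsq ((av R h.2.2 x0 (σ k) x3 x1 - R x0 (σ k) x3 x1) *ᵥ v' x1 x3)) +
      2 * ((1 + hh * L) * (4 * (ez * ∑ x1 ∈ iv K M.1, ∑ x3 ∈ iv K M.2.2, ∑ x0 ∈ iv K t,
        nsq (R x0 0 x3 x1 *ᵥ v' x1 x3))) +
        ez * (κ ^ 2 * (4 * q.Lm * s)) * P * (1 / 2) ^ L * 8 ^ K) := by
    intro t _
    refine aff_pts (A := Q) (D := Dp) hQ hP t M (fun k hk y _ hy => hS k hk y hy)
      (fun k x0 x1 x3 => sq_nonneg _) ?_ hez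
      (fun k hk m x1 x3 => kF_line D.B2 hKn hk m x1 x3) hh1 hh2 L (sq_nonneg κ)
      (by positivity) ?_ ?_ σ N hN hσ h.2.2 ?_ ?_
    · intro k hk y _ hd
      have e0 : kF q.Lm U.2.1 K F2 (k + 1) (y.1, y.2.1, y.2.2) = 0 := kF_dead ((hDx k y).1 hd)
      rw [e0]
      norm_num
    · intro x1 x3 j hj x0
      have h1 := hcap x0 j hj x3 x1 (v' x1 x3)
      rw [hR] at h1
      exact h1
    · intro k hk y hy _ hd
      rw [hDx] at hd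
      have hy' := mem_cb.1 hy
      refine v_mass D hv hv2 hLm hk ?_ ?_ hd
      · have := congrArg (fun p : Pt => p.2.1) hy'
        exact mem_iv.2 this
      · have := congrArg (fun p : Pt => p.2.2) hy'
        exact mem_iv.2 this
    · refine le_of_eq (sum_congr rfl fun x1 _ => sum_congr rfl fun x3 _ =>
        sum_congr rfl fun x0 _ => ?_)
      rw [hR]
    · refine le_of_eq (sum_congr rfl fun x1 _ => sum_congr rfl fun x3 _ =>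
        sum_congr rfl fun k _ => sum_congr rfl fun x0 _ => ?_)
      rw [hav, hR]
  -- order of the sums
  have hord : ∀ t ∈ rt M, ∑ x0 ∈ iv K t, ∑ k ∈ range N, ∑ x' ∈ iv K M.1,
      ∑ z ∈ iv K M.2.2, (if S k (x0, x', z) then
        nsq (av R h.2.2 x0 (σ k) z x' *ᵥ C x0 (k + 1) z x') else 0) =
      ∑ x1 ∈ iv K M.1, ∑ x3 ∈ iv K M.2.2, ∑ k ∈ range N, ∑ x0 ∈ iv K t,
      (if S k (x0, x1, x3) then W k x0 x1 x3 * nsq (Rs (Mx x1) o x1 (sx x1) K h.2.2 (σ k) x0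
        (ix (σ k) (x3 - h.2.2)) *ᵥ v' x1 x3) else 0) := by
    intro t _
    rw [H483.sum4]
    refine sum_congr rfl fun x1 _ => sum_congr rfl fun x3 _ => sum_congr rfl fun k _ =>
      sum_congr rfl fun x0 _ => ?_
    rw [D.C_eq, mulVec_smul, H841.nsq_smul, hav]
  rw [sum_congr rfl hord]
  refine (sum_le_sum one).trans ?_
  rw [sum_add_distrib]
  set X1 : ℝ := ∑ t ∈ rt M, ∑ x1 ∈ iv K M.1, ∑ x3 ∈ iv K M.2.2, ∑ k ∈ range N,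
    ∑ x0 ∈ iv K t, W k x0 x1 x3 *
      nsq ((av R h.2.2 x0 (σ k) x3 x1 - R x0 (σ k) x3 x1) *ᵥ v' x1 x3) with hX1
  set X2 : ℝ := ∑ t ∈ rt M, ∑ x1 ∈ iv K M.1, ∑ x3 ∈ iv K M.2.2, ∑ x0 ∈ iv K t,
    nsq (R x0 0 x3 x1 *ᵥ v' x1 x3) with hX2
  have hX10 : 0 ≤ X1 := sum_nonneg fun t _ => sum_nonneg fun x1 _ => sum_nonneg fun x3 _ =>
    sum_nonneg fun k _ => sum_nonneg fun x0 _ => mul_nonneg (sq_nonneg _) (nsq_nonneg _)
  have hX20 : 0 ≤ X2 := sum_nonneg fun t _ => sum_nonneg fun x1 _ => sum_nonneg fun x3 _ =>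
    sum_nonneg fun x0 _ => nsq_nonneg _
  have e1 : ∑ t ∈ rt M, 2 * (∑ x1 ∈ iv K M.1, ∑ x3 ∈ iv K M.2.2, ∑ k ∈ range N, ∑ x0 ∈ iv K t,
        W k x0 x1 x3 * nsq ((av R h.2.2 x0 (σ k) x3 x1 - R x0 (σ k) x3 x1) *ᵥ v' x1 x3)) =
      2 * X1 := by
    rw [hX1, mul_sum]
  have e2 : ∑ t ∈ rt M, 2 * ((1 + hh * (L : ℝ)) * (4 * (ez * ∑ x1 ∈ iv K M.1,
        ∑ x3 ∈ iv K M.2.2, ∑ x0 ∈ iv K t, nsq (R x0 0 x3 x1 *ᵥ v' x1 x3))) +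
        ez * (κ ^ 2 * (4 * q.Lm * s)) * P * (1 / 2) ^ L * 8 ^ K) =
      8 * (1 + hh * L) * (ez * X2) +
        24 * (q.Lm * κ ^ 2) * P * (1 / 2) ^ L * (ez * s * 8 ^ K) := by
    rw [← mul_sum, sum_add_distrib, sum_const, nsmul_eq_mul, card_rt3]
    simp only [← mul_sum]
    rw [← hX2]
    ring
  rw [e1, e2]
  have hL0 : (0 : ℝ) ≤ L := Nat.cast_nonneg L
  have g1 : 2 * X1 ≤ (1 + P) * (2 * DS) := by nlinarith
  have g2 : 8 * (1 + hh * (L : ℝ)) * (ez * X2) ≤ (1 + P) * (8 * (1 + 2 * L) * (ez * EE)) := by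
    have g3 : (1 + hh * (L : ℝ)) ≤ (1 + P) * (1 + 2 * L) := by nlinarith
    have g4 : ez * X2 ≤ ez * EE := mul_le_mul_of_nonneg_left hE hez
    have g5 : 0 ≤ ez * X2 := mul_nonneg hez hX20
    calc 8 * (1 + hh * (L : ℝ)) * (ez * X2) ≤ 8 * ((1 + P) * (1 + 2 * L)) * (ez * EE) :=
          mul_le_mul (mul_le_mul_of_nonneg_left g3 (by norm_num)) g4 g5 (by positivity)
      _ = (1 + P) * (8 * (1 + 2 * L) * (ez * EE)) := by ring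
  have g6 : 24 * (q.Lm * κ ^ 2) * P * (1 / 2) ^ L * (ez * s * 8 ^ K) ≤
      (1 + P) * (24 * (q.Lm * κ ^ 2) * (1 / 2) ^ L * (ez * s * 8 ^ K)) := by
    have g7 : 0 ≤ 24 * (q.Lm * κ ^ 2) * (1 / 2 : ℝ) ^ L * (ez * s * 8 ^ K) := by positivity
    nlinarith
  linarith

end

end Vale.Agent.P141.H124
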