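import Vale.Agent.P141.H124.DevW

/-!
# P141, line (A): the fields `af`, `afL` at all the data

* `raw_c` : one constant in front of the raw shapes;
* `end_sg`, `end_bl` : the energies at the end;
* `af_raw` : one number for every lag;
* `fld_af : RawField FAf`, `fld_afL : RawField FAfL`.
-/

namespace Vale.Agent.P141.H124

open Finset Matrix
open Vale.Agent.P141.PL (Pt iv ix cb cx mem_iv mem_cb card_iv card_cb ix_ix)
open Vale.Agent.P141.PL.H315 (Tri A2)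
open Vale.Agent.P141.H43 (nsq nsq_nonneg)
open Vale.Agent.P141.H48 (BSl sst)
open Vale.Agent.P141.H460 (GPack)
open Vale.Agent.P141.H677.Sk (Slt FamA FamV FDs av av_Rs lam1 SlotN Raw RawField FAf FAfL SDat cst)
open Vale.Agent.P141.H677 (kF MT KT rt)
open Vale.Agent.P141.H841 (Rm Rs Mc cJ uJ thH Th1 alF)
open Vale.Agent.P141.H64 (Qf NB HypN)

noncomputable section

open scoped Classical

set_option linter.unusedSectionVars false

/-! ### One constant in front -/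

/-- a power is below an exponential -/
theorem exists_shift (B : ℝ) (q : ℕ) : ∃ m : ℕ, B * (1 + (m : ℝ)) ^ q ≤ 2 ^ m := by
  have h1 := tendsto_pow_const_div_const_pow_of_one_lt q (one_lt_two : (1 : ℝ) < 2)
  have h2 : Filter.Tendsto (fun n : ℕ => B * 2 * (((n + 1 : ℕ) : ℝ) ^ q / 2 ^ (n + 1)))
      Filter.atTop (nhds (B * 2 * 0)) :=
    ((h1.comp (Filter.tendsto_add_atTop_nat 1)).const_mul (B * 2))
  rw [mul_zero] at h2
  obtain ⟨m, hm⟩ := (h2.eventually (gt_mem_nhds (zero_lt_one : (0 : ℝ) < 1))).exists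
  refine ⟨m, ?_⟩
  have h3 : (0 : ℝ) < 2 ^ m := by positivity
  have h4 : B * 2 * (((m + 1 : ℕ) : ℝ) ^ q / 2 ^ (m + 1)) = B * (1 + (m : ℝ)) ^ q / 2 ^ m := by
    push_cast
    rw [pow_succ (2 : ℝ) m, add_comm (1 : ℝ)]
    field_simp
  rw [h4, div_lt_one h3] at hm
  exact hm.le

/-- the shift -/
def shB (B : ℝ) (q : ℕ) : ℝ := max 1 (B * (1 + ((exists_shift B q).choose : ℝ)) ^ q)

/-- **One constant in front of the raw shapes.** -/
theorem raw_c {q : ℕ} {B C0 C1 b y e0 κ E D X : ℝ} (hB : 1 ≤ B) (hb : 0 ≤ b) (hy : 0 < y)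
    (hE : 0 ≤ E) (hD : 0 ≤ D)
    (h0 : ∀ L : ℕ, X ≤ D * (B * (1 + (L : ℝ)) ^ q * (b * y ^ e0 +
      (1 + κ) ^ 2 * y ^ (-C0) / 2 ^ L)))
    (h1 : ∀ (L : ℕ) (δ : ℝ), 0 < δ → X ≤ D * (B * (1 + (L : ℝ)) ^ q * (δ +
      y ^ (-C1) * E / δ + E + (1 + κ) ^ 2 * y ^ (-C1) * (1 + 1 / δ) / 2 ^ L))) :
    Raw q C0 C1 (shB B q ^ 2) b y e0 κ E D X := by
  set m : ℕ := (exists_shift B q).choose with hm
  have hms : B * (1 + (m : ℝ)) ^ q ≤ 2 ^ m := (exists_shift B q).choose_spec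
  set H : ℝ := shB B q with hH
  have hH1 : 1 ≤ H := le_max_left _ _
  have hHB : B * (1 + (m : ℝ)) ^ q ≤ H := le_max_right _ _
  have hH2 : H ≤ H ^ 2 := by nlinarith
  have hm0 : (0 : ℝ) ≤ m := Nat.cast_nonneg m
  have hBm : 0 ≤ B * (1 + (m : ℝ)) ^ q := by positivity
  have y0 : 0 < y ^ e0 := Real.rpow_pos_of_pos hy _
  have y1 : 0 < y ^ (-C0) := Real.rpow_pos_of_pos hy _
  have y2 : 0 < y ^ (-C1) := Real.rpow_pos_of_pos hy _
  have hpow : ∀ L : ℕ, B * (1 + ((L + m : ℕ) : ℝ)) ^ q ≤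
      (1 + (L : ℝ)) ^ q * (B * (1 + (m : ℝ)) ^ q) := by
    intro L
    have hL : (0 : ℝ) ≤ L := Nat.cast_nonneg L
    have e1 : (1 + ((L + m : ℕ) : ℝ)) ≤ (1 + (L : ℝ)) * (1 + (m : ℝ)) := by
      push_cast
      nlinarith [mul_nonneg hL hm0]
    have e2 := pow_le_pow_left₀ (by positivity) e1 q
    rw [mul_pow] at e2
    have e3 := mul_le_mul_of_nonneg_left e2 (by linarith : (0 : ℝ) ≤ B)
    refine e3.trans (le_of_eq (by ring))
  have h2m : (0 : ℝ) < 2 ^ m := by positivity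
  have hq : B * (1 + (m : ℝ)) ^ q / 2 ^ m ≤ 1 := by
    rw [div_le_one h2m]
    exact hms
  refine ⟨fun L => (h0 (L + m)).trans ?_, fun L δ hδ => (h1 (L + m) (H * δ) (by positivity)).trans ?_⟩
  · refine mul_le_mul_of_nonneg_left ?_ hD
    have hL : (0 : ℝ) ≤ L := Nat.cast_nonneg L
    calc B * (1 + ((L + m : ℕ) : ℝ)) ^ q * (b * y ^ e0 +
          (1 + κ) ^ 2 * y ^ (-C0) / 2 ^ (L + m))
        ≤ (1 + (L : ℝ)) ^ q * (B * (1 + (m : ℝ)) ^ q) * (b * y ^ e0 +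
          (1 + κ) ^ 2 * y ^ (-C0) / 2 ^ (L + m)) :=
          mul_le_mul_of_nonneg_right (hpow L) (by positivity)
      _ = (1 + (L : ℝ)) ^ q * ((B * (1 + (m : ℝ)) ^ q) * (b * y ^ e0) +
          (B * (1 + (m : ℝ)) ^ q / 2 ^ m) * ((1 + κ) ^ 2 * y ^ (-C0) / 2 ^ L)) := by
          rw [pow_add]
          field_simp
      _ ≤ (1 + (L : ℝ)) ^ q * (b * shB B q ^ 2 * y ^ e0 + (1 + κ) ^ 2 * y ^ (-C0) / 2 ^ L) := by
          refine mul_le_mul_of_nonneg_left (add_le_add ?_ ?_) (by positivity)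
          · have h5 : (B * (1 + (m : ℝ)) ^ q) * (b * y ^ e0) ≤ H ^ 2 * (b * y ^ e0) :=
              mul_le_mul_of_nonneg_right (hHB.trans hH2) (by positivity)
            refine h5.trans (le_of_eq ?_)
            rw [← hH]
            ring
          · exact mul_le_of_le_one_left (by positivity) hq
  · refine mul_le_mul_of_nonneg_left ?_ hD
    have hL : (0 : ℝ) ≤ L := Nat.cast_nonneg L
    have hH0 : 0 < H := by linarith
    calc B * (1 + ((L + m : ℕ) : ℝ)) ^ q * (H * δ + y ^ (-C1) * E / (H * δ) + E +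
          (1 + κ) ^ 2 * y ^ (-C1) * (1 + 1 / (H * δ)) / 2 ^ (L + m))
        ≤ (1 + (L : ℝ)) ^ q * (B * (1 + (m : ℝ)) ^ q) * (H * δ + y ^ (-C1) * E / (H * δ) + E +
          (1 + κ) ^ 2 * y ^ (-C1) * (1 + 1 / (H * δ)) / 2 ^ (L + m)) :=
          mul_le_mul_of_nonneg_right (hpow L) (by positivity)
      _ = (1 + (L : ℝ)) ^ q * ((B * (1 + (m : ℝ)) ^ q) * (H * δ) +
          (B * (1 + (m : ℝ)) ^ q / H) * (y ^ (-C1) * E / δ) + (B * (1 + (m : ℝ)) ^ q) * E +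
          (B * (1 + (m : ℝ)) ^ q / 2 ^ m) *
            ((1 + κ) ^ 2 * y ^ (-C1) * (1 + 1 / (H * δ)) / 2 ^ L)) := by
          rw [pow_add]
          field_simp
      _ ≤ (1 + (L : ℝ)) ^ q * (shB B q ^ 2 * δ + y ^ (-C1) * E / δ + shB B q ^ 2 * E +
          (1 + κ) ^ 2 * y ^ (-C1) * (1 + 1 / δ) / 2 ^ L) := by
          rw [← hH]
          refine mul_le_mul_of_nonneg_left (add_le_add (add_le_add (add_le_add ?_ ?_) ?_) ?_)
            (by positivity)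
          · have h5 := mul_le_mul_of_nonneg_right hHB (by positivity : 0 ≤ H * δ)
            refine h5.trans (le_of_eq (by ring))
          · refine mul_le_of_le_one_left (by positivity) ?_
            rw [div_le_one hH0]
            exact hHB
          · exact mul_le_mul_of_nonneg_right (hHB.trans hH2) hE
          · refine (mul_le_of_le_one_left (by positivity) hq).trans ?_
            refine div_le_div_of_nonneg_right ?_ (by positivity)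
            refine mul_le_mul_of_nonneg_left (add_le_add le_rfl ?_) (by positivity)
            refine one_div_le_one_div_of_le hδ ?_
            nlinarith

/-! ### The energies at the end -/

section ends

variable {ι : Type} [Fintype ι] [DecidableEq ι]

variable {q : H401.Num} {n : ℕ} {ez : ℝ} {F1 F2 F3 : ℕ → Pt → ℝ} {K : ℕ} {x : Pt} {s r : ℝ}
  {U : Tri} {g : ℤ → ℤ → ℝ} {u v : ℤ → ℤ → ι → ℝ} {A : FamA} {b C : FamV ι}
  {Q1 Q2 Q3 : ℕ → Pt → Prop} {v' : ℤ → ℤ → ι → ℝ} {o : ℤ} {l κ0 P κ E : ℝ} {R : Slt ι}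

/-- the energy at the end, signed -/
theorem end_sg (D : FDs q n ez F1 F2 F3 K x s r U g u v A b C Q1 Q2 Q3 v')
    (hC : H305.ClsM K x s r P κ0 U g u v) (hE : 0 ≤ E)
    (hS : SlotN (q.al U K) o K (cx K x) l u R κ E) :
    ∑ t ∈ rt (cx K x), ∑ x1 ∈ iv K (cx K x).1, ∑ x3 ∈ iv K (cx K x).2.2, ∑ x0 ∈ iv K t,
      nsq (R x0 0 x3 x1 *ᵥ v' x1 x3) ≤ E * (s * 8 ^ K) := by
  rw [sum_comm]
  have h1 : ∀ x1 ∈ iv K (cx K x).1, ∑ t ∈ rt (cx K x), ∑ x3 ∈ iv K (cx K x).2.2,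
      ∑ x0 ∈ iv K t, nsq (R x0 0 x3 x1 *ᵥ v' x1 x3) ≤
      2 ^ K * E * ∑ x3 ∈ iv K (cx K x).2.2, nsq (v' x1 x3) := by
    intro x1 hx1
    rw [sum_comm, mul_sum]
    refine sum_le_sum fun x3 _ => ?_
    refine (hS.en (rt (cx K x)) x3 x1 hx1 (v' x1 x3)).trans (le_of_eq (by ring))
  refine (sum_le_sum h1).trans ?_
  rw [← mul_sum]
  have h2 := mul_le_mul_of_nonneg_left (H841.mass_C hC.toCls (H841.v'_le D))
    (by positivity : (0 : ℝ) ≤ 2 ^ K * E)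
  refine h2.trans (le_of_eq ?_)
  have e8 : (8 : ℝ) ^ K = 2 ^ K * 4 ^ K := by rw [← mul_pow]; norm_num
  rw [e8]
  ring

/-- the energy at the end, any signs -/
theorem end_bl (D : FDs q n ez F1 F2 F3 K x s r U g u v A b C Q1 Q2 Q3 v')
    (hC : H305.ClsM K x s r P κ0 U g u v) (hl : 0 < l) (hP : 0 ≤ P) (ho : o = 1 ∨ o = -1)
    (hS : SlotN (q.al U K) o K (cx K x) l u R κ E) :
    ∑ t ∈ rt (cx K x), ∑ x1 ∈ iv K (cx K x).1, ∑ x3 ∈ iv K (cx K x).2.2, ∑ x0 ∈ iv K t,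
      nsq (R x0 0 x3 x1 *ᵥ v' x1 x3) ≤ 3 * (P / (2 * l) * (s * 8 ^ K)) := by
  obtain ⟨sx, hs1, hs0, hR⟩ := hS.sgn
  have e8 : (8 : ℝ) ^ K = 2 ^ K * 4 ^ K := by rw [← mul_pow]; norm_num
  have one : ∀ t ∈ rt (cx K x), ∑ x1 ∈ iv K (cx K x).1, ∑ x3 ∈ iv K (cx K x).2.2,
      ∑ x0 ∈ iv K t, nsq (R x0 0 x3 x1 *ᵥ v' x1 x3) ≤ P / (2 * l) * (s * 8 ^ K) := by
    intro T _
    have h1 : ∀ x1 ∈ iv K (cx K x).1, ∑ x3 ∈ iv K (cx K x).2.2,
        ∑ x0 ∈ iv K T, nsq (R x0 0 x3 x1 *ᵥ v' x1 x3) ≤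
        2 ^ K * ∑ y ∈ iv K (cx K x).2.2,
            Qf (cJ l K (cx K x).2.1) (uJ K (cx K x).2.1 u x1) (v' x1 y) := by
      intro x1 _
      refine le_trans (le_of_eq ?_) (H841.endB (T := T) (x1 := x1) (u := u) (M2 := (cx K x).2.1)
        hl ho (hs1 x1) (v' x1))
      refine sum_congr rfl fun y _ => sum_congr rfl fun x0 _ => ?_
      rw [hR, H483.Rm_cut (M2 := (cx K x).2.1) (H841.sgn_root (hs0 x1)) 0 x0 y]
      rfl
    refine (sum_le_sum h1).trans ?_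
    rw [← mul_sum]
    have h2 := mul_le_mul_of_nonneg_left (H841.Q_sumC hC.toCls hl hP (H841.v'_le D))
      (by positivity : (0 : ℝ) ≤ 2 ^ K)
    refine h2.trans (le_of_eq ?_)
    rw [e8]
    field_simp
  refine (sum_le_sum one).trans (le_of_eq ?_)
  rw [sum_const, nsmul_eq_mul, card_rt3]

end ends

/-! ### The numbers -/

theorem lam_ratio {q : H401.Num} {s r : ℝ} (ht : 0 < q.t) (ht1 : q.t ≤ 1) (he : 0 < q.e0)
    (hs : 0 < s) (hr : 1 ≤ r) : 2 * lam1 q s r / (2 * q.lam s r) ≤ (r / q.t) ^ 10 := by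
  have hr0 : 0 < r := by linarith
  have hS : 0 < √s := Real.sqrt_pos.2 hs
  have hl : 0 < q.lam s r := H401.Num.lam_pos ht hs hr
  rw [div_le_iff₀ (by positivity)]
  unfold H677.Sk.lam1 H401.Num.lam
  have h1 : (1 : ℝ) ≤ q.t ^ (-q.e0) :=
    Real.one_le_rpow_of_pos_of_le_one_of_nonpos ht ht1 (by linarith)
  have h2 : (1 : ℝ) ≤ r ^ q.e0 := Real.one_le_rpow hr he.le
  have h3 : (1 : ℝ) ≤ r ^ (2 : ℝ) := Real.one_le_rpow hr (by norm_num)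
  have e1 : q.t ^ (2 - q.e0) = q.t ^ (-8 : ℝ) * q.t ^ (10 : ℕ) * q.t ^ (-q.e0) := by
    rw [← Real.rpow_natCast q.t 10, ← Real.rpow_add ht, ← Real.rpow_add ht]
    congr 1
    push_cast
    ring
  have e2 : r ^ (10 : ℕ) = r ^ (8 : ℝ) * r ^ (2 : ℝ) := by
    rw [← Real.rpow_natCast r 10, ← Real.rpow_add hr0]
    congr 1
    norm_num
  have ht8 : 0 < q.t ^ (-8 : ℝ) := Real.rpow_pos_of_pos ht _
  have hr8 : 0 < r ^ (8 : ℝ) := Real.rpow_pos_of_pos hr0 _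
  have ht10 : 0 < q.t ^ (10 : ℕ) := by positivity
  rw [e1, div_pow, e2]
  have e3 : r ^ (8 : ℝ) * r ^ (2 : ℝ) / q.t ^ (10 : ℕ) *
      (2 * (q.t ^ (-8 : ℝ) * q.t ^ (10 : ℕ) * q.t ^ (-q.e0) * √s * r ^ q.e0)) =
      2 * (q.t ^ (-8 : ℝ) * √s * r ^ (8 : ℝ)) * (r ^ (2 : ℝ) * q.t ^ (-q.e0) * r ^ q.e0) := by
    field_simp
  rw [e3]
  refine le_mul_of_one_le_right (by positivity) ?_
  have h4 : (1 : ℝ) ≤ r ^ (2 : ℝ) * q.t ^ (-q.e0) := one_le_mul_of_one_le_of_one_le h3 h1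
  exact one_le_mul_of_one_le_of_one_le h4 h2

theorem y12 {t r : ℝ} (ht : 0 < t) (hr : 0 < r) : (t / r) ^ (-(12 : ℝ)) = (r / t) ^ 12 := by
  have h : 0 < t / r := div_pos ht hr
  rw [Real.rpow_neg h.le, ← Real.inv_rpow h.le, inv_div]
  have := Real.rpow_natCast (r / t) 12
  push_cast at this
  exact this

/-- the signed numeral, letters -/
theorem sc_s0 {X D J G W E δ A T1 T2 T3 : ℝ} (hD : 0 ≤ D) (hJ : 1 ≤ J) (hG : 0 ≤ G)
    (hW : 0 ≤ W) (hE : 0 ≤ E) (hδ : 0 < δ) (hA : 1 ≤ A) (h1 : T1 ≤ W + G) (h2 : T2 ≤ 2 * J)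
    (h3 : T3 ≤ G)
    (h : X ≤ 2 * (3 * (1728 * J * (D * (δ + T1)))) + 8 * T2 * (E * D) + 24 * T3 * D) :
    X ≤ D * (20000 * A * J * (δ + W + E + G)) := by
  have hJ0 : 0 ≤ J := zero_le_one.trans hJ
  have c1 := mul_le_mul_of_nonneg_left (add_le_add (le_refl δ) h1)
    (by positivity : 0 ≤ 10368 * (J * D))
  have c2 := mul_le_mul_of_nonneg_right h2 (by positivity : 0 ≤ 8 * (E * D))
  have c3 := mul_le_mul_of_nonneg_left h3 (by positivity : 0 ≤ 24 * D)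
  have c4 : 24 * D * G ≤ 24 * D * G * J := le_mul_of_one_le_right (by positivity) hJ
  have w0 : 0 ≤ δ + W + E + G := by positivity
  have c5 : D * (20000 * 1 * J * (δ + W + E + G)) ≤ D * (20000 * A * J * (δ + W + E + G)) := by
    gcongr
  have c6 : D * (20000 * 1 * J * (δ + W + E + G)) =
      10368 * (J * D) * (δ + (W + G)) + 2 * J * (8 * (E * D)) + 24 * D * G * J +
      D * J * (9632 * δ + 9632 * W + 19984 * E + 9608 * G) := by ring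
  have c7 : 0 ≤ D * J * (9632 * δ + 9632 * W + 19984 * E + 9608 * G) := by positivity
  have c8 : 2 * (3 * (1728 * J * (D * (δ + T1)))) + 8 * T2 * (E * D) + 24 * T3 * D =
      10368 * (J * D) * (δ + T1) + T2 * (8 * (E * D)) + 24 * D * T3 := by ring
  rw [c8] at h
  rw [c6] at c5
  linarith

/-- the blind numeral, letters -/
theorem sc_b0 {X D J G Y A T1 T2 T3 T4 T5 : ℝ} (hD : 0 ≤ D) (hJ : 1 ≤ J) (hG : 0 ≤ G)
    (hY : 0 ≤ Y) (hA : 1 ≤ A) (h1 : T1 ≤ 48 * J) (h2 : T2 ≤ 2 * J) (h3 : T3 ≤ G)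
    (h40 : 0 ≤ T4) (h4 : T4 ≤ 6 * J) (h5 : T5 ≤ G)
    (h : X ≤ 2 * (3 * (T1 * (A / 2 * Y * D) + 128 * (T4 * T5 * D))) +
      8 * T2 * (3 * (A / 2 * Y * D)) + 24 * T3 * D) :
    X ≤ D * (20000 * A * J * (Y + G)) := by
  have hJ0 : 0 ≤ J := zero_le_one.trans hJ
  have hA0 : 0 ≤ A := zero_le_one.trans hA
  have c1 := mul_le_mul_of_nonneg_right h1 (by positivity : 0 ≤ 3 * (A * Y * D))
  have c2 := mul_le_mul_of_nonneg_right h2 (by positivity : 0 ≤ 12 * (A * Y * D))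
  have c3 := mul_le_mul_of_nonneg_left h3 (by positivity : 0 ≤ 24 * D)
  have c4 : 24 * D * G ≤ 24 * D * G * (J * A) :=
    le_mul_of_one_le_right (by positivity) (one_le_mul_of_one_le_of_one_le hJ hA)
  have c5 := mul_le_mul_of_nonneg_left ((mul_le_mul_of_nonneg_left h5 h40).trans
    (mul_le_mul_of_nonneg_right h4 hG)) (by positivity : 0 ≤ 768 * D)
  have c6 : 768 * D * (6 * J * G) ≤ 768 * D * (6 * J * G) * A :=
    le_mul_of_one_le_right (by positivity) hA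
  have c7 : D * (20000 * A * J * (Y + G)) =
      48 * J * (3 * (A * Y * D)) + 2 * J * (12 * (A * Y * D)) + 24 * D * G * (J * A) +
      768 * D * (6 * J * G) * A + D * A * J * (19832 * Y + 15368 * G) := by ring
  have c8 : 0 ≤ D * A * J * (19832 * Y + 15368 * G) := by positivity
  have c9 : 2 * (3 * (T1 * (A / 2 * Y * D) + 128 * (T4 * T5 * D))) +
      8 * T2 * (3 * (A / 2 * Y * D)) + 24 * T3 * D =
      T1 * (3 * (A * Y * D)) + 768 * D * (T4 * T5) + T2 * (12 * (A * Y * D)) + 24 * D * T3 := by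
    ring
  rw [c9] at h
  rw [c7]
  linarith

/-- the parts of the numeral -/
theorem sc_V {ρ V κ δ E : ℝ} (L : ℕ) (hρ : 1 ≤ ρ) (hV : V ≤ ρ ^ 10) (hκ : 1 ≤ κ)
    (hE : 0 ≤ E) (hδ : 0 < δ) :
    V * (E / δ + (1 + ρ ^ 2 / 2 / δ) / 2 ^ L) ≤
      ρ ^ 12 * E / δ + (1 + κ) ^ 2 * ρ ^ 12 * (1 + 1 / δ) / 2 ^ L := by
  have h2L : (0 : ℝ) < 2 ^ L := by positivity
  have hρ0 : 0 < ρ := by linarith
  have r10 : ρ ^ 10 ≤ ρ ^ 12 := pow_le_pow_right₀ hρ (by norm_num)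
  have r2 : 1 ≤ ρ ^ 2 := one_le_pow₀ hρ
  have hk1 : 1 ≤ (1 + κ) ^ 2 := one_le_pow₀ (by linarith)
  have a1 : V * (E / δ + (1 + ρ ^ 2 / 2 / δ) / 2 ^ L) ≤
      ρ ^ 10 * (E / δ + (1 + ρ ^ 2 / 2 / δ) / 2 ^ L) :=
    mul_le_mul_of_nonneg_right hV (by positivity)
  refine a1.trans ?_
  rw [mul_add]
  refine add_le_add ?_ ?_
  · rw [mul_div_assoc]
    exact mul_le_mul_of_nonneg_right r10 (by positivity)
  · have a3 : 1 + ρ ^ 2 / 2 / δ ≤ ρ ^ 2 * (1 + 1 / δ) := by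
      have a31 : ρ ^ 2 / 2 / δ ≤ ρ ^ 2 * (1 / δ) := by
        rw [div_div, mul_one_div]
        refine div_le_div_of_nonneg_left (by positivity) hδ ?_
        linarith
      rw [mul_add, mul_one]
      exact add_le_add r2 a31
    rw [← mul_div_assoc]
    refine div_le_div_of_nonneg_right ?_ h2L.le
    have a5 := mul_le_mul_of_nonneg_left a3 (by positivity : 0 ≤ ρ ^ 10)
    have a6 : ρ ^ 10 * (ρ ^ 2 * (1 + 1 / δ)) = 1 * (ρ ^ 12 * (1 + 1 / δ)) := by ring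
    rw [a6] at a5
    refine a5.trans ?_
    rw [mul_assoc ((1 + κ) ^ 2)]
    exact mul_le_mul_of_nonneg_right hk1 (by positivity)

theorem sc_L {ρ Λ κ z : ℝ} (L : ℕ) (hρ : 1 ≤ ρ) (hΛ : Λ ≤ ρ) (hκ : 1 ≤ κ) (hz : 1 ≤ z) :
    (Λ * κ ^ 2) * (1 / 2) ^ L ≤ (1 + κ) ^ 2 * ρ ^ 12 * z / 2 ^ L := by
  have h2L : (0 : ℝ) < 2 ^ L := by positivity
  have hρ0 : 0 < ρ := by linarith
  have r1 : ρ ≤ ρ ^ 12 := le_self_pow₀ hρ (by norm_num)
  have hk2 : κ ^ 2 ≤ (1 + κ) ^ 2 := pow_le_pow_left₀ (by linarith) (by linarith) 2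
  have b1 : Λ * κ ^ 2 ≤ ρ ^ 12 * (1 + κ) ^ 2 :=
    mul_le_mul (hΛ.trans r1) hk2 (by positivity) (by positivity)
  have b2 : (1 / 2 : ℝ) ^ L = 1 / 2 ^ L := by
    rw [div_pow, one_pow]
  rw [b2, mul_one_div]
  refine div_le_div_of_nonneg_right ?_ h2L.le
  refine b1.trans ?_
  rw [mul_comm (ρ ^ 12)]
  exact le_mul_of_one_le_right (by positivity) hz

theorem sc_J (L : ℕ) : 1 ≤ (1 + (L : ℝ)) ^ 3 ∧ 48 + 16 * (L : ℝ) ^ 3 ≤ 48 * (1 + (L : ℝ)) ^ 3 ∧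
    (1 + 2 * (L : ℝ)) ≤ 2 * (1 + (L : ℝ)) ^ 3 ∧
    ((L : ℝ) + 2) ^ 2 + 2 ≤ 6 * (1 + (L : ℝ)) ^ 3 := by
  have hL : (0 : ℝ) ≤ L := Nat.cast_nonneg L
  have l2 := pow_nonneg hL 2
  have l3 := pow_nonneg hL 3
  refine ⟨one_le_pow₀ (by linarith), by nlinarith, by nlinarith, by nlinarith⟩

/-! ### The fields -/

section fields

variable {ι : Type} [Fintype ι] [DecidableEq ι]

/-- the scalar constant -/
def Aaf (p : H401.Num) : ℝ := shB (20000 * p.L) 3 ^ 2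

/-- **One number for every lag.** -/
theorem af_raw {q : H401.Num} {n : ℕ} {ez : ℝ} {F1 F2 F3 : ℕ → Pt → ℝ} {o : ℤ} {K : ℕ} {x : Pt}
    {s r : ℝ} {U : Tri} {g : ℤ → ℤ → ℝ} {u v : ℤ → ℤ → ι → ℝ} {A : FamA} {b C : FamV ι}
    {R : Slt ι} {κ E : ℝ} (H : SDat q n ez F1 F2 F3 o K x s r U g u v A b C R κ E) (h : Pt)
    (c N : ℕ) (hN : N ≤ K) (hc : ∀ k < N, k + c ≤ K)
    {S Q : ℕ → Pt → Prop} {P : ℝ} (hP : 0 ≤ P) (hQ : GPack Q K P)
    (hS : ∀ k < K, ∀ y : Pt, S k y → Q k (cx k y)) :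
    ∃ X, Raw 3 12 12 (Aaf (cst q)) (q.t ^ (-q.c)) (q.t / r) q.e0 κ E (ez * s * 8 ^ K) X ∧
    ∑ t ∈ rt (cx K x), ∑ x0 ∈ iv K t, ∑ k ∈ range N, ∑ x' ∈ iv K (cx K x).1,
      ∑ z ∈ iv K (cx K x).2.2, (if S k (x0, x', z) then
        nsq (av R h.2.2 x0 (k + c) z x' *ᵥ C x0 (k + 1) z x') else 0) ≤ (1 + P) * X := by
  obtain ⟨Q1, Q2, Q3, v', D⟩ := H.dat
  have hez : 0 ≤ ez := H.hF2.1
  have ht := H.t0
  have hr := H.r1
  have hr0 : 0 < r := by linarith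
  have hs := H.s0
  have hl : 0 < q.lam s r := H401.Num.lam_pos ht hs hr
  have hl1 : 0 ≤ lam1 q s r := by unfold H677.Sk.lam1; positivity
  have hL0 : 0 ≤ q.L := zero_le_one.trans H.L1
  have hPP : 0 ≤ q.L * q.t ^ (2 - q.c) * √s := by positivity
  have hlr := H677.Sk.lam_row (q := q) ht H.t1 H.e00 hs hr H.e01
  have hLm : 0 ≤ q.Lm := by unfold H401.Num.Lm; positivity
  have hρ : 1 ≤ r / q.t := by
    rw [one_le_div ht]
    linarith [H.t1]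
  have hV := lam_ratio (q := q) ht H.t1 H.e00 hs hr
  have hΛ : q.Lm ≤ r / q.t := by
    unfold H401.Num.Lm
    have h1 : q.t ^ (-q.d) ≤ q.t ^ (-1 : ℝ) :=
      Real.rpow_le_rpow_of_exponent_ge ht H.t1 (by linarith [H.d1])
    rw [Real.rpow_neg_one] at h1
    refine h1.trans ?_
    rw [div_eq_mul_inv]
    exact le_mul_of_one_le_left (by positivity) hr
  have hpm := H677.Sk.m_eq (q := q) ht hs hr
  set X0 : ℝ := ∑ t ∈ rt (cx K x), ∑ x0 ∈ iv K t, ∑ k ∈ range N, ∑ x' ∈ iv K (cx K x).1,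
      ∑ z ∈ iv K (cx K x).2.2, (if S k (x0, x', z) then
        nsq (av R h.2.2 x0 (k + c) z x' *ᵥ C x0 (k + 1) z x') else 0) with hX0
  obtain ⟨sx, hs1, hs0, hR⟩ := H.slt.sgn
  have hcl := H.cls.toCls
  have hcl' : ∀ z ∈ iv K (ix K x.1), ∀ y ∈ iv K (ix K x.2.2),
      v z y ⬝ᵥ v z y ≤ U.2.1 (z, y) ^ 2 := by
    intro z hz y hy
    have h1 := hcl.v_le
    rw [H769.iv_pt, H769.iv_pt] at h1
    exact h1 z hz y hy
  have hP1 : 0 < 1 + P := by linarith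
  have key : ∀ (L : ℕ) {EE DS : ℝ},
      (∑ t ∈ rt (cx K x), ∑ x1 ∈ iv K (cx K x).1, ∑ x3 ∈ iv K (cx K x).2.2, ∑ x0 ∈ iv K t,
        nsq (R x0 0 x3 x1 *ᵥ v' x1 x3) ≤ EE) →
      (∑ t ∈ rt (cx K x), ∑ x1 ∈ iv K (cx K x).1, ∑ x3 ∈ iv K (cx K x).2.2, ∑ k ∈ range N,
        ∑ x0 ∈ iv K t, kF q.Lm U.2.1 K F2 (k + 1) (x0, x1, x3) ^ 2 *
          nsq ((av R h.2.2 x0 (k + c) x3 x1 - R x0 (k + c) x3 x1) *ᵥ v' x1 x3) ≤ DS) →
      X0 / (1 + P) ≤ 2 * DS + 8 * (1 + 2 * L) * (ez * EE) +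
        24 * (q.Lm * κ ^ 2) * (1 / 2) ^ L * (ez * s * 8 ^ K) := by
    intro L EE DS h1 h2
    rw [div_le_iff₀' hP1]
    exact af_all D H.hK hez hLm hs.le hcl' hcl.U_v2 hR H.slt.cap h hP hQ hS (fun k => k + c) N hN
      (fun k hk => ⟨Nat.le_add_right k c, hc k hk⟩) L h1 h2
  refine ⟨X0 / (1 + P), ?_, le_of_eq (by field_simp)⟩
  have hL1 : 1 ≤ q.L := H.L1
  have hD0 : 0 ≤ ez * s * 8 ^ K := by positivity
  have hb : 0 ≤ q.t ^ (-q.c) := by positivity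
  have hy : 0 < q.t / r := div_pos ht hr0
  refine raw_c (B := 20000 * q.L) (by linarith) hb hy H.E0.le hD0 (fun L => ?_) fun L δ hδ => ?_
  · obtain ⟨j0, j1, j2, j3⟩ := sc_J L
    have h1 := key L (end_bl D H.cls hl hPP H.ho H.slt)
      (dev_blind D H.cls hl hPP hl1 H.ho H.hK hez H.slt c N hN hc h.2.2 L)
    rw [y12 ht hr0]
    refine sc_b0 (T1 := 48 + 16 * (L : ℝ) ^ 3) (T2 := 1 + 2 * (L : ℝ))
      (T3 := (q.Lm * κ ^ 2) * (1 / 2) ^ L) (T4 := ((L : ℝ) + 2) ^ 2 + 2)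
      (T5 := 2 * lam1 q s r / (2 * q.lam s r) / 2 ^ L) hD0 j0 (by positivity) (by positivity) hL1
      j1 j2 ?_ (by positivity) j3 ?_ (h1.trans (le_of_eq ?_))
    · have h2 := sc_L (z := 1) L hρ hΛ H.κ1 le_rfl
      rwa [mul_one] at h2
    · refine div_le_div_of_nonneg_right (hV.trans ?_) (by positivity)
      have r10 : (r / q.t) ^ 10 ≤ (r / q.t) ^ 12 := pow_le_pow_right₀ hρ (by norm_num)
      have hk1 : 1 ≤ (1 + κ) ^ 2 := one_le_pow₀ (by linarith [H.κ1])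
      exact r10.trans (le_mul_of_one_le_left (by positivity) hk1)
    · rw [hpm]
      ring
  · obtain ⟨j0, j1, j2, j3⟩ := sc_J L
    have h1 := key L (end_sg D H.cls H.E0.le H.slt)
      (dev_signed D H.cls ht hl hlr hl1 H.ho H.hK hez H.E0.le H.slt c N hN hc h.2.2 L hδ)
    rw [y12 ht hr0]
    have hd : 0 < 1 / δ := by positivity
    refine sc_s0 (W := (r / q.t) ^ 12 * E / δ) (T2 := 1 + 2 * (L : ℝ))
      (T1 := 2 * lam1 q s r / (2 * q.lam s r) * (E / δ + (1 + (r / q.t) ^ 2 / 2 / δ) / 2 ^ L))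
      (T3 := (q.Lm * κ ^ 2) * (1 / 2) ^ L) hD0 j0 (by positivity)
      (div_nonneg (mul_nonneg (by positivity) H.E0.le) hδ.le) H.E0.le hδ hL1
      (sc_V L hρ hV H.κ1 H.E0.le hδ) j2 (sc_L L hρ hΛ H.κ1 (by linarith))
      (h1.trans (le_of_eq ?_))
    ring

/-- **The field `af`.** -/
theorem fld_af : RawField FAf := by
  refine ⟨3, 12, 12, Aaf, ?_⟩
  intro ι _ _ q n ez F1 F2 F3 o K x s r U g u v A b C R κ E H h _ S Q P hP hQ hS
  exact af_raw H h 0 K le_rfl (fun k hk => by omega) hP hQ hS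

/-- **The field `afL`.** -/
theorem fld_afL : RawField FAfL := by
  refine ⟨3, 12, 12, Aaf, ?_⟩
  intro ι _ _ q n ez F1 F2 F3 o K x s r U g u v A b C R κ E H h _ l S Q P hP hQ hS
  obtain ⟨X, h1, h2⟩ := af_raw H h (l + 1) (K - l) (by omega) (fun k hk => by omega) hP hQ hS
  refine ⟨X, h1, le_trans (le_of_eq ?_) h2⟩
  have e : ∀ k, k + 1 + l = k + (l + 1) := fun k => by omega
  simp only [e]

end fields

end

end Vale.Agent.P141.H124
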