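import Vale.Agent.P141.H124.LagX
import Vale.Agent.P141.H782.AffS

/-!
# P141, line (A): the moving slot at the affected nodes, slot of a coarser scale

Points `x = (x0, x1, x3)`, letters of `H782.AffS` and `H483.QSh`.

* `mxF` : the square of the maximal function in `x0` of a martingale; `le_mxF`, `sum_mxF`;
* `aff_any_up` : `H782.aff_any` with the slot of the scale `σ k ≥ k`;
* `aff_pts` : the mean slot of the scale `σ k` at the affected points, label point `(x1, x3)`;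
* `lag_A` : the stack energies of `H38` at the points of any predicate.
-/

namespace Vale.Agent.P141.H124

open Finset Matrix
open Vale.Agent.P141.PL (Pt iv ix cb cx mem_iv mem_cb card_iv card_cb ix_ix)
open Vale.Agent.P141.H43 (nsq nsq_nonneg)
open Vale.Agent.P141.H460 (GPack LPack Lin Mrt tree_aff)
open Vale.Agent.P141.H782 (lv lv_pack any_le)
open Vale.Agent.P141.H841 (Lm Rm Rs nsq_add_le)
open Vale.Agent.P141.H224 (Nx Nx_nonneg vR vR_ix Rm_mart0 mart_le_dav)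
open Vale.Agent.P141.PL.H571 (dav_le_S doob_block)
open Vale.Agent.P141.H747 (sft shC)
open Vale.Agent.P141.H483 (YR)
open Vale.Agent.P141.H297.Ch (es es_nonneg)

noncomputable section

open scoped Classical

/-! ### The maximal function -/

section max

variable {κ : Type*} [Fintype κ]

/-- the square of the maximal function of the scales `0, ..., K` -/
def mxF (K : ℕ) (V : ℕ → ℤ → κ → ℝ) (x : ℤ) : ℝ := Nx (fun x => √(nsq (V 0 x))) K 0 x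

theorem mxF_nonneg (K : ℕ) (V : ℕ → ℤ → κ → ℝ) (x : ℤ) : 0 ≤ mxF K V x := Nx_nonneg _ _ _ _

theorem le_mxF {K : ℕ} {V : ℕ → ℤ → κ → ℝ} (hV : Mrt K V) {j : ℕ} (hj : j ≤ K) (x : ℤ) :
    nsq (V j (ix j x)) ≤ mxF K V x := by
  have hg : ∀ x, 0 ≤ √(nsq (V 0 x)) := fun x => Real.sqrt_nonneg _
  have h1 := mart_le_dav (V := V) hV hj (ix j x)
  have h2 := dav_le_S (fun x => √(nsq (V 0 x))) K (K - j) x
  rw [Nat.sub_sub_self hj] at h2
  refine le_trans ?_ (Nx_le (g := fun x => √(nsq (V 0 x))) (n := K) hg x (Nat.zero_le j))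
  have h3 := Real.sq_sqrt (nsq_nonneg (V j (ix j x)))
  rw [← h3]
  unfold H224.Nx
  rw [if_pos hj]
  exact pow_le_pow_left₀ (Real.sqrt_nonneg _) (h1.trans h2) 2

theorem sum_mxF (K : ℕ) (V : ℕ → ℤ → κ → ℝ) (T : ℤ) :
    ∑ x ∈ iv K T, mxF K V x ≤ 4 * ∑ x ∈ iv K T, nsq (V 0 x) := by
  have hg : ∀ x, 0 ≤ √(nsq (V 0 x)) := fun x => Real.sqrt_nonneg _
  have h1 : ∑ x ∈ iv K T, mxF K V x ≤ 4 * ∑ x ∈ iv K T, √(nsq (V 0 x)) ^ 2 := by
    unfold mxF H224.Nx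
    simp only [if_pos (Nat.zero_le K), Nat.sub_zero]
    rw [H224.iv_Ico]
    have h := doob_block hg (by norm_num : (1 : ℝ) < 2) K T (T + 1)
    have e2 : ((2 : ℝ) / (2 - 1)) ^ (2 : ℝ) = 4 := by norm_num
    rw [e2] at h
    simp only [Real.rpow_two] at h
    exact h
  refine h1.trans (le_of_eq ?_)
  congr 1
  exact sum_congr rfl fun x _ => Real.sq_sqrt (nsq_nonneg _)

/-- order of the sums over a cube -/
theorem cb_sum (k : ℕ) (m : Pt) (g : Pt → ℝ) : ∑ y ∈ cb k m, g y =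
    ∑ y1 ∈ iv k m.2.1, ∑ y3 ∈ iv k m.2.2, ∑ y0 ∈ iv k m.1, g (y0, y1, y3) := by
  unfold PL.cb
  rw [sum_product]
  simp only [sum_product]
  rw [sum_comm]
  refine sum_congr rfl fun y1 _ => ?_
  rw [sum_comm]

end max

/-! ### Any affected nodes, slot of a coarser scale -/

section any

variable {κ : Type*} [Fintype κ] {A D : ℕ → Pt → Prop} {K : ℕ} {P : ℝ}

/-- **The moving slot of the scale `σ k` at the affected nodes of the scale `k`**, any predicate `A`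
with packing; `Z k` the scalar factor, `0` at the dead nodes `D`. -/
theorem aff_any_up (hA : GPack A K P) (hP : 0 ≤ P) (M : Pt) {S : ℕ → Pt → Prop}
    (hS : ∀ k < K, ∀ x ∈ cb K M, S k x → A k (cx k x)) {Z : ℕ → Pt → ℝ}
    (hD : ∀ k < K, ∀ x ∈ cb K M, D k (cx k x) → Z k x = 0) {e : ℝ} (he : 0 ≤ e)
    (hl0 : ∀ k < K, ∀ m x y : ℤ, ∑ z ∈ iv k m, Z k (z, x, y) ^ 2 ≤ e * 2 ^ k)
    {V : ℤ → ℤ → ℕ → ℤ → κ → ℝ} (hV : ∀ x1 x3, Mrt K (V x1 x3)) {h : ℕ} (hh : 1 ≤ h)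
    (hPh : 2 * P ≤ h) (q : ℕ) {τ : ℝ} (hτ : 0 ≤ τ) (σ : ℕ → ℕ) (hσ : ∀ k < K, k ≤ σ k ∧ σ k ≤ K)
    (hτm : ∀ k < K, ∀ x ∈ cb K M, A k (cx k x) → ¬ D k (cx k x) → ∑ y1 ∈ iv k (ix k x.2.1),
      ∑ y3 ∈ iv k (ix k x.2.2), nsq (V y1 y3 (σ k) (ix (σ k) x.1)) ≤ τ * 4 ^ k) :
    ∑ k ∈ range K, ∑ x ∈ cb K M, (if S k x then Z k x ^ 2 *
      nsq (V x.2.1 x.2.2 (σ k) (ix (σ k) x.1)) else 0) ≤
      (1 + h * q) * (4 * (e * ∑ x ∈ cb K M, nsq (V x.2.1 x.2.2 0 x.1))) +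
        e * τ * P * (1 / 2) ^ q * 8 ^ K := by
  have h0 := lv_pack (D := D) hA
  set f : ℕ → Pt → ℝ := fun k x => Z k x ^ 2 * nsq (V x.2.1 x.2.2 (σ k) (ix (σ k) x.1)) with hf
  have hf0 : ∀ k x, 0 ≤ f k x := fun k x => mul_nonneg (sq_nonneg _) (nsq_nonneg _)
  refine (any_le (A := A) (D := D) (f := f) M hS hf0 ?_).trans ?_
  · intro k hk x hx hd
    simp only [hf]
    rw [hD k hk x hx hd]
    ring
  -- one line of a cell
  have line : ∀ k < K, ∀ x1 x3 m c : ℤ, (∀ x0 ∈ iv k m, ix (σ k) x0 = c) →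
      ∑ x0 ∈ iv k m, f k (x0, x1, x3) ≤ e * 2 ^ k * nsq (V x1 x3 (σ k) c) := by
    intro k hk x1 x3 m c hc
    have e1 : ∑ x0 ∈ iv k m, f k (x0, x1, x3) =
        (∑ x0 ∈ iv k m, Z k (x0, x1, x3) ^ 2) * nsq (V x1 x3 (σ k) c) := by
      rw [sum_mul]
      refine sum_congr rfl fun x0 hx0 => ?_
      simp only [hf]
      rw [hc x0 hx0]
    rw [e1]
    exact mul_le_mul_of_nonneg_right (hl0 k hk m x1 x3) (nsq_nonneg _)
  have hcell : ∀ k < K, ∀ x : Pt, ∀ x0 ∈ iv k (cx k x).1, ix (σ k) x0 = ix (σ k) x.1 := by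
    intro k hk x x0 hx0
    obtain ⟨p1, _⟩ := hσ k hk
    refine H460.ix_le p1 ?_
    exact mem_iv.1 hx0
  have h1 := tree_aff (A := lv K A D) (M := M) (h0.lp M) hP hh hPh q (mul_nonneg he hτ) f
    (fun x => e * mxF K (V x.2.1 x.2.2) x.1) (fun x _ => mul_nonneg he (mxF_nonneg _ _ _))
    (fun k hk x hx ha => by
      obtain ⟨hk', _, _⟩ := ha
      rw [cb_sum, cb_sum]
      refine sum_le_sum fun y1 _ => sum_le_sum fun y3 _ => ?_
      refine (line k hk' y1 y3 _ _ (hcell k hk' x)).trans ?_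
      have e2 : e * 2 ^ k * nsq (V y1 y3 (σ k) (ix (σ k) x.1)) =
          ∑ x0 ∈ iv k (cx k x).1, e * nsq (V y1 y3 (σ k) (ix (σ k) x.1)) := by
        rw [sum_const, card_iv, nsmul_eq_mul]
        push_cast
        ring
      rw [e2]
      refine sum_le_sum fun x0 hx0 => mul_le_mul_of_nonneg_left ?_ he
      rw [← hcell k hk' x x0 hx0]
      exact le_mxF (hV y1 y3) (hσ k hk').2 x0)
    (fun k hk x hx ha => by
      obtain ⟨hk', a1, a2⟩ := ha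
      rw [cb_sum]
      refine (sum_le_sum fun y1 _ => sum_le_sum fun y3 _ =>
        line k hk' y1 y3 _ _ (hcell k hk' x)).trans ?_
      simp only [← mul_sum]
      have h3 := hτm k hk' x hx a1 a2
      have e8 : (8 : ℝ) ^ k = 2 ^ k * 4 ^ k := by rw [← mul_pow]; norm_num
      calc e * 2 ^ k * ∑ y1 ∈ iv k (cx k x).2.1, ∑ y3 ∈ iv k (cx k x).2.2,
            nsq (V y1 y3 (σ k) (ix (σ k) x.1)) ≤ e * 2 ^ k * (τ * 4 ^ k) :=
            mul_le_mul_of_nonneg_left h3 (by positivity)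
        _ = e * τ * 8 ^ k := by rw [e8]; ring)
  refine h1.trans (add_le_add (mul_le_mul_of_nonneg_left ?_ (by positivity)) le_rfl)
  rw [← mul_sum, cb_sum, cb_sum]
  have h4 : ∑ y1 ∈ iv K M.2.1, ∑ y3 ∈ iv K M.2.2, ∑ y0 ∈ iv K M.1, mxF K (V y1 y3) y0 ≤
      4 * ∑ y1 ∈ iv K M.2.1, ∑ y3 ∈ iv K M.2.2, ∑ y0 ∈ iv K M.1, nsq (V y1 y3 0 y0) := by
    simp only [mul_sum]
    refine sum_le_sum fun y1 _ => sum_le_sum fun y3 _ => ?_
    rw [← mul_sum]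
    exact sum_mxF K (V y1 y3) M.1
  have h5 := mul_le_mul_of_nonneg_left h4 he
  linarith

end any

/-! ### The mean slot at the affected points -/

section pts

variable {ι : Type} [Fintype ι]

variable {Mx : ℤ → ℕ → ℤ → Matrix ι ι ℝ} {o : ℤ} {sx : ℤ → ℕ → ℤ → ℤ → ℝ} {K : ℕ}
  {A D : ℕ → Pt → Prop} {P : ℝ}

/-- **The mean slot of the scale `σ k` at the affected points**, any predicate `S` which implies
`A`; `W k x0 x1 x3` weights with line sums `e 2 ^ k`, `0` at the dead nodes; `c` the cap of the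
slot, `μ` the mass of `v` on the live affected squares. -/
theorem aff_pts (hA : GPack A K P) (hP : 0 ≤ P) (t : ℤ) (M : Pt) {S : ℕ → Pt → Prop}
    (hS : ∀ k < K, ∀ x ∈ cb K (t, M.1, M.2.2), S k x → A k (cx k x))
    {W : ℕ → ℤ → ℤ → ℤ → ℝ} (hW0 : ∀ k x0 x1 x3, 0 ≤ W k x0 x1 x3)
    (hD : ∀ k < K, ∀ x ∈ cb K (t, M.1, M.2.2), D k (cx k x) → W k x.1 x.2.1 x.2.2 = 0) {e : ℝ}
    (he : 0 ≤ e) (hl0 : ∀ k < K, ∀ m x1 x3 : ℤ, ∑ x0 ∈ iv k m, W k x0 x1 x3 ≤ e * 2 ^ k)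
    {v : ℤ → ℤ → ι → ℝ} {h : ℕ} (hh : 1 ≤ h) (hPh : 2 * P ≤ h) (q : ℕ) {c μ : ℝ} (hc : 0 ≤ c)
    (hμ : 0 ≤ μ) (hcap : ∀ x1 x3, ∀ j ≤ K, ∀ x0,
      nsq (Rm (Mx x1) o x1 (sx x1) K j x0 x3 *ᵥ v x1 x3) ≤ c * nsq (v x1 x3))
    (hm : ∀ k < K, ∀ x ∈ cb K (t, M.1, M.2.2), A k (cx k x) → ¬ D k (cx k x) →
      ∑ y1 ∈ iv k (ix k x.2.1), ∑ y3 ∈ iv k (ix k x.2.2), nsq (v y1 y3) ≤ μ * 4 ^ k)
    (σ : ℕ → ℕ) (N : ℕ) (hN : N ≤ K) (hσ : ∀ k < N, k ≤ σ k ∧ σ k ≤ K) (sh : ℤ) {EE DS : ℝ}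
    (hE : ∑ x1 ∈ iv K M.1, ∑ x3 ∈ iv K M.2.2, ∑ x0 ∈ iv K t,
      nsq (Rm (Mx x1) o x1 (sx x1) K 0 x0 x3 *ᵥ v x1 x3) ≤ EE)
    (hDS : ∑ x1 ∈ iv K M.1, ∑ x3 ∈ iv K M.2.2, ∑ k ∈ range N, ∑ x0 ∈ iv K t, W k x0 x1 x3 *
      nsq ((Rs (Mx x1) o x1 (sx x1) K sh (σ k) x0 (ix (σ k) (x3 - sh)) -
        Rm (Mx x1) o x1 (sx x1) K (σ k) x0 x3) *ᵥ v x1 x3) ≤ DS) :
    ∑ x1 ∈ iv K M.1, ∑ x3 ∈ iv K M.2.2, ∑ k ∈ range N, ∑ x0 ∈ iv K t,
      (if S k (x0, x1, x3) then W k x0 x1 x3 *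
        nsq (Rs (Mx x1) o x1 (sx x1) K sh (σ k) x0 (ix (σ k) (x3 - sh)) *ᵥ v x1 x3) else 0) ≤
      2 * DS + 2 * ((1 + h * q) * (4 * (e * EE)) + e * (c * μ) * P * (1 / 2) ^ q * 8 ^ K) := by
  set V : ℤ → ℤ → ℕ → ℤ → ι → ℝ := fun x1 x3 => vR (Mx x1) o x1 (sx x1) K x3 (v x1 x3) with hVd
  set σ' : ℕ → ℕ := fun k => if k < N then σ k else K with hσ'
  have hVm : ∀ x1 x3, Mrt K (V x1 x3) := fun x1 x3 => Rm_mart0 x3 (v x1 x3)
  have hVe : ∀ x1 x3 j x0, V x1 x3 j (ix j x0) = Rm (Mx x1) o x1 (sx x1) K j x0 x3 *ᵥ v x1 x3 :=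
    fun x1 x3 j x0 => vR_ix x3 (v x1 x3) j x0
  have e0 : ∀ x : ℤ, ix 0 x = x := fun x => by
    unfold PL.ix
    norm_num
  have h1 := aff_any_up (A := A) (D := D) (κ := ι) hA hP (t, M.1, M.2.2) hS
    (Z := fun k x => √(W k x.1 x.2.1 x.2.2))
    (fun k hk x hx hd => by rw [hD k hk x hx hd, Real.sqrt_zero]) he
    (fun k hk m x1 x3 => by
      simp only [Real.sq_sqrt (hW0 _ _ _ _)]
      exact hl0 k hk m x1 x3) hVm hh hPh q (mul_nonneg hc hμ) σ'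
    (fun k hk => by
      simp only [hσ']
      split_ifs with hkN
      · exact hσ k hkN
      · exact ⟨hk.le, le_rfl⟩)
    (fun k hk x hx a1 a2 => by
      have h3 := mul_le_mul_of_nonneg_left (hm k hk x hx a1 a2) hc
      refine le_trans ?_ (h3.trans (le_of_eq (by ring)))
      simp only [mul_sum]
      refine sum_le_sum fun y1 _ => sum_le_sum fun y3 _ => ?_
      rw [hVe]
      refine hcap y1 y3 _ ?_ x.1
      simp only [hσ']
      split_ifs with hkN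
      · exact (hσ k hkN).2
      · exact le_rfl)
  have hEE : ∑ x ∈ cb K (t, M.1, M.2.2), nsq (V x.2.1 x.2.2 0 x.1) ≤ EE := by
    rw [cb_sum]
    refine le_trans (le_of_eq ?_) hE
    refine sum_congr rfl fun x1 _ => sum_congr rfl fun x3 _ => sum_congr rfl fun x0 _ => ?_
    rw [← hVe, e0]
  have h2 : ∑ x1 ∈ iv K M.1, ∑ x3 ∈ iv K M.2.2, ∑ k ∈ range N, ∑ x0 ∈ iv K t,
      (if S k (x0, x1, x3) then W k x0 x1 x3 *
        nsq (Rm (Mx x1) o x1 (sx x1) K (σ k) x0 x3 *ᵥ v x1 x3) else 0) ≤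
      (1 + h * q) * (4 * (e * EE)) + e * (c * μ) * P * (1 / 2) ^ q * 8 ^ K := by
    have h3 : (1 + (h : ℝ) * q) * (4 * (e * ∑ x ∈ cb K (t, M.1, M.2.2), nsq (V x.2.1 x.2.2 0 x.1)))
        ≤ (1 + h * q) * (4 * (e * EE)) :=
      mul_le_mul_of_nonneg_left (mul_le_mul_of_nonneg_left (mul_le_mul_of_nonneg_left hEE he)
        (by norm_num)) (by positivity)
    refine le_trans ?_ (h1.trans (add_le_add h3 le_rfl))
    have h5 : ∑ x1 ∈ iv K M.1, ∑ x3 ∈ iv K M.2.2, ∑ k ∈ range N, ∑ x0 ∈ iv K t,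
        (if S k (x0, x1, x3) then W k x0 x1 x3 *
          nsq (Rm (Mx x1) o x1 (sx x1) K (σ k) x0 x3 *ᵥ v x1 x3) else 0) =
        ∑ k ∈ range N, ∑ x ∈ cb K (t, M.1, M.2.2), (if S k x then √(W k x.1 x.2.1 x.2.2) ^ 2 *
          nsq (V x.2.1 x.2.2 (σ' k) (ix (σ' k) x.1)) else 0) := by
      have h6 : ∀ k ∈ range N, ∑ x ∈ cb K (t, M.1, M.2.2), (if S k x then
          √(W k x.1 x.2.1 x.2.2) ^ 2 * nsq (V x.2.1 x.2.2 (σ' k) (ix (σ' k) x.1)) else 0) =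
          ∑ x1 ∈ iv K M.1, ∑ x3 ∈ iv K M.2.2, ∑ x0 ∈ iv K t,
          (if S k (x0, x1, x3) then W k x0 x1 x3 *
            nsq (Rm (Mx x1) o x1 (sx x1) K (σ k) x0 x3 *ᵥ v x1 x3) else 0) := by
        intro k hk
        rw [mem_range] at hk
        rw [cb_sum]
        refine sum_congr rfl fun x1 _ => sum_congr rfl fun x3 _ => sum_congr rfl fun x0 _ => ?_
        have e1 : σ' k = σ k := if_pos hk
        rw [e1]
        simp only [hVe, Real.sq_sqrt (hW0 _ _ _ _)]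
      rw [sum_congr rfl h6]
      symm
      rw [sum_comm]
      refine sum_congr rfl fun x1 _ => ?_
      rw [sum_comm]
    rw [h5]
    refine sum_le_sum_of_subset_of_nonneg (range_subset_range.2 hN) fun k _ _ =>
      sum_nonneg fun x _ => ?_
    split_ifs
    · exact mul_nonneg (sq_nonneg _) (nsq_nonneg _)
    · exact le_rfl
  have hp : ∀ x1 x3 k x0, (if S k (x0, x1, x3) then W k x0 x1 x3 *
        nsq (Rs (Mx x1) o x1 (sx x1) K sh (σ k) x0 (ix (σ k) (x3 - sh)) *ᵥ v x1 x3) else 0) ≤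
      2 * (W k x0 x1 x3 * nsq ((Rs (Mx x1) o x1 (sx x1) K sh (σ k) x0 (ix (σ k) (x3 - sh)) -
        Rm (Mx x1) o x1 (sx x1) K (σ k) x0 x3) *ᵥ v x1 x3)) +
      2 * (if S k (x0, x1, x3) then W k x0 x1 x3 *
        nsq (Rm (Mx x1) o x1 (sx x1) K (σ k) x0 x3 *ᵥ v x1 x3) else 0) := by
    intro x1 x3 k x0
    have hw := hW0 k x0 x1 x3
    have n1 := mul_nonneg hw (nsq_nonneg ((Rs (Mx x1) o x1 (sx x1) K sh (σ k) x0
      (ix (σ k) (x3 - sh)) - Rm (Mx x1) o x1 (sx x1) K (σ k) x0 x3) *ᵥ v x1 x3))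
    split_ifs
    · have h3 := nsq_add_le
        ((Rs (Mx x1) o x1 (sx x1) K sh (σ k) x0 (ix (σ k) (x3 - sh)) -
          Rm (Mx x1) o x1 (sx x1) K (σ k) x0 x3) *ᵥ v x1 x3)
        (Rm (Mx x1) o x1 (sx x1) K (σ k) x0 x3 *ᵥ v x1 x3)
      rw [← add_mulVec, sub_add_cancel] at h3
      have h4 := mul_le_mul_of_nonneg_left h3 hw
      linarith
    · linarith
  refine (sum_le_sum fun x1 _ => sum_le_sum fun x3 _ => sum_le_sum fun k _ => sum_le_sum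
    fun x0 _ => hp x1 x3 k x0).trans ?_
  simp only [sum_add_distrib, ← mul_sum]
  linarith

end pts

/-! ### The stack energies at the points of any predicate -/

section stk

set_option linter.unusedSectionVars false

variable {ι : Type} [Fintype ι] [DecidableEq ι]

variable {Mx : ℤ → ℕ → ℤ → Matrix ι ι ℝ} {o : ℤ} {sx : ℤ → ℕ → ℤ → ℤ → ℝ} {K : ℕ}
  {C : ℤ → ℕ → ℤ → ℤ → ι → ℝ} {φ : ℤ → ℕ → ℤ → ℤ → ℝ} {v : ℤ → ℤ → ι → ℝ}

/-- **The stack energies at the points of a predicate**, slot of the scale `σ k`, family of the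
time `τ k`; `Bf x0 k x z` grid coordinates, `AF k (x0, x1, x3)` original coordinates. -/
theorem lag_A (M s : Pt) (R1 R3 : ℤ) (X : Finset ℤ)
    (hC : ∀ x0 k z x, C x0 k z x = φ x0 k z x • v x z) (r : ℝ) (S : Finset ℕ) (σ τ : ℕ → ℕ)
    (Bf : ℤ → ℕ → ℤ → ℤ → Prop) (AF : ℕ → Pt → Prop)
    (hBf : ∀ x0 ∈ X, ∀ k ∈ S, ∀ x z, Bf x0 k x z → ca K M s (C x0) (τ k) x z ≠ 0 →
      AF k (x0, x + s.1, z + s.2.2)) {A B : ℝ}
    (hA : ∑ x ∈ iv K M.1, ∑ z ∈ iv K M.2.2, ∑ k ∈ S, ∑ x0 ∈ X,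
      (if AF k (x0, x, z) then φ x0 (τ k) z x ^ 2 * nsq (v x z) else 0) ≤ A)
    (hB : ∑ x ∈ iv K M.1, ∑ z ∈ iv K M.2.2, ∑ k ∈ S, ∑ x0 ∈ X,
      (if AF k (x0, x, z) then φ x0 (τ k) z x ^ 2 *
        nsq (Rs (Mx x) o x (sx x) K s.2.2 (σ k) x0 (ix (σ k) (z - s.2.2)) *ᵥ v x z) else 0) ≤ B) :
    ∑ x0 ∈ X, ∑ k ∈ S, ∑ x ∈ iv K R1, ∑ z ∈ iv K R3,
        (if Bf x0 k x z then
          es r (Ra Mx o sx K s x0 (σ k)) (σ k) (ca K M s (C x0) (τ k)) x z else 0) ≤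
      r ^ 2 * A + B := by
  have h := gen_sum (K := K) M s R1 R3 X S C τ
    (fun x0 k z x w => if AF k (x0, x, z) then r ^ 2 * nsq w +
      nsq (YR Mx o sx K s.2.2 x0 (σ k) z x *ᵥ w) else 0)
    (fun x0 k z x => by simp only [mulVec_zero, H841.nsq_zero, mul_zero, add_zero, ite_self])
    (fun x0 k z x w => by
      split_ifs
      · exact add_nonneg (mul_nonneg (sq_nonneg _) (nsq_nonneg _)) (nsq_nonneg _)
      · exact le_rfl)
  refine le_trans ?_ (h.trans ?_)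
  · refine sum_le_sum fun x0 hx0 => sum_le_sum fun k hk => sum_le_sum fun x _ =>
      sum_le_sum fun z _ => ?_
    have hnn : 0 ≤ (if AF k (x0, x + s.1, z + s.2.2) then r ^ 2 *
        nsq (shC K M s (C x0) (τ k) z x) + nsq (YR Mx o sx K s.2.2 x0 (σ k) (z + s.2.2)
          (x + s.1) *ᵥ shC K M s (C x0) (τ k) z x) else 0) := by
      split_ifs
      · exact add_nonneg (mul_nonneg (sq_nonneg _) (nsq_nonneg _)) (nsq_nonneg _)
      · exact le_rfl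
    by_cases hf : Bf x0 k x z
    · rw [if_pos hf, es_eq]
      by_cases h0 : ca K M s (C x0) (τ k) x z = 0
      · rw [h0]
        simp only [mulVec_zero, H841.nsq_zero, mul_zero, add_zero]
        exact hnn
      · rw [if_pos (hBf x0 hx0 k hk x z hf h0)]
        exact le_rfl
    · rw [if_neg hf]
      exact hnn
  · have e1 : ∀ x z k x0, (if AF k (x0, x, z) then r ^ 2 * nsq (C x0 (τ k) z x) +
        nsq (YR Mx o sx K s.2.2 x0 (σ k) z x *ᵥ C x0 (τ k) z x) else 0) =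
        r ^ 2 * (if AF k (x0, x, z) then φ x0 (τ k) z x ^ 2 * nsq (v x z) else 0) +
        (if AF k (x0, x, z) then φ x0 (τ k) z x ^ 2 *
          nsq (YR Mx o sx K s.2.2 x0 (σ k) z x *ᵥ v x z) else 0) := by
      intro x z k x0
      split_ifs
      · rw [nsq_Cv hC, nsq_C hC]
      · rw [mul_zero, add_zero]
    simp only [e1, sum_add_distrib, ← mul_sum]
    exact add_le_add (mul_le_mul_of_nonneg_left hA (sq_nonneg r)) hB

end stk

end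

end Vale.Agent.P141.H124
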