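import Vale.Agent.P141.H124.AfAll
import Vale.Agent.P141.H677.RawFD
import Vale.Agent.P141.H841.SlotB

/-!
# P141, line (A): the deviations of the mean slot at class data, every lag

* `wk`, `al1` : the weights of the stopped input at the next time, its live scales;
* `dev_one` : one label point, one root, lag `c`, from (S1) with the lagged weights;
* `dev_signed`, `dev_blind` : the sums over the roots and the label points.
-/

namespace Vale.Agent.P141.H124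

open Finset Matrix
open Vale.Agent.P141.PL (Pt iv ix cb cx mem_iv mem_cb card_iv card_cb ix_ix)
open Vale.Agent.P141.PL.H315 (Tri A2)
open Vale.Agent.P141.H43 (nsq nsq_nonneg)
open Vale.Agent.P141.H48 (BSl sst)
open Vale.Agent.P141.H677.Sk (Slt FamA FamV FDs av av_Rs lam1 SlotN)
open Vale.Agent.P141.H677 (kF MT KT rt)
open Vale.Agent.P141.H841 (Rm Rs Mc cJ uJ thH Th1 alF)
open Vale.Agent.P141.H64 (Qf NB HypN)

noncomputable section

open scoped Classical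

set_option linter.unusedSectionVars false

variable {ι : Type} [Fintype ι] [DecidableEq ι]

variable {q : H401.Num} {n : ℕ} {ez : ℝ} {F1 F2 F3 : ℕ → Pt → ℝ} {K : ℕ} {x : Pt} {s r : ℝ}
  {U : Tri} {g : ℤ → ℤ → ℝ} {u v : ℤ → ℤ → ι → ℝ} {A : FamA} {b C : FamV ι}
  {Q1 Q2 Q3 : ℕ → Pt → Prop} {v' : ℤ → ℤ → ι → ℝ}

/-! ### The weights of the next time -/

/-- the weights of the stopped input at the next time -/
def wk (q : H401.Num) (U : Tri) (K : ℕ) (F2 : ℕ → Pt → ℝ) (x1 : ℤ) (k : ℕ) (x0 y : ℤ) : ℝ :=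
  if k < K then kF q.Lm U.2.1 K F2 (k + 1) (x0, x1, y) ^ 2 else 0

theorem wk_nonneg (x1 : ℤ) (k : ℕ) (x0 y : ℤ) : 0 ≤ wk q U K F2 x1 k x0 y := by
  unfold wk
  split_ifs
  · exact sq_nonneg _
  · exact le_rfl

theorem wk_line (hB : BSl n ez q.cP F2 Q2) (hK : K ≤ n) (hez : 0 ≤ ez) (x1 : ℤ) :
    ∀ k ≤ K, ∀ j y, ∑ x0 ∈ iv k j, wk q U K F2 x1 k x0 y ≤ ez * 2 ^ k := by
  intro k _ j y
  unfold wk
  by_cases hk : k < K
  · simp only [if_pos hk]
    exact kF_line hB hK hk j x1 y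
  · simp only [if_neg hk, sum_const_zero]
    positivity

/-- the live scales at the next time -/
def al1 (q : H401.Num) (K : ℕ) (x : Pt) (U : Tri) (x1 : ℤ) (k : ℕ) (y : ℤ) : Prop :=
  alF q K x U x1 (min (k + 1) K) y

theorem al1_fib (D : FDs q n ez F1 F2 F3 K x s r U g u v A b C Q1 Q2 Q3 v')
    (hl1 : 0 ≤ lam1 q s r) {x1 : ℤ} (hx1 : x1 ∈ iv K (ix K x.1)) :
    ∀ k ≤ K, ∀ y, al1 q K x U x1 k y →
      ∑ y' ∈ iv k (ix k y), nsq (v' x1 y') ≤ 2 * lam1 q s r * 2 ^ k := by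
  intro k hk y hy
  have h := H841.fibF D hx1 (min (k + 1) K) (min_le_right _ _) y hy
  by_cases hk1 : k < K
  · have e : min (k + 1) K = k + 1 := by omega
    rw [e] at h
    refine le_trans (sum_le_sum_of_subset_of_nonneg (fun y' hy' => ?_) fun _ _ _ => nsq_nonneg _)
      (h.trans (le_of_eq (by rw [pow_succ]; ring)))
    rw [mem_iv] at hy' ⊢
    exact H677.ix_le (Nat.le_succ k) hy'
  · have e : min (k + 1) K = K := by omega
    have e2 : k = K := by omega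
    rw [e] at h
    rw [e2]
    refine h.trans ?_
    have : 0 ≤ lam1 q s r * 2 ^ K := by positivity
    linarith

theorem al1_up (x1 : ℤ) :
    ∀ y ∈ iv K (ix K x.2.2), ∀ k < K, al1 q K x U x1 k y → al1 q K x U x1 (k + 1) y := by
  intro y hy k hk h
  unfold al1 at h ⊢
  by_cases hk1 : k + 1 < K
  · have e : min (k + 1) K = k + 1 := by omega
    have e2 : min (k + 1 + 1) K = k + 1 + 1 := by omega
    rw [e] at h
    rw [e2]
    exact H841.upF q K x U x1 y hy (k + 1) hk1 h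
  · have e : min (k + 1) K = K := by omega
    have e2 : min (k + 1 + 1) K = K := by omega
    rw [e] at h
    rwa [e2]

theorem al1_wk (x1 : ℤ) :
    ∀ y ∈ iv K (ix K x.2.2), ∀ k ≤ K, ¬ al1 q K x U x1 k y → ∀ x0,
      wk q U K F2 x1 k x0 y = 0 := by
  intro y hy k _ h x0
  unfold wk
  split_ifs with hk
  · have e : min (k + 1) K = k + 1 := by omega
    unfold al1 at h
    rw [e] at h
    have h2 : sst q.Lm U.2.1 K (k + 1) x1 y := by
      by_contra hs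
      exact h ⟨mem_iv.1 hy, hs⟩
    rw [kF_dead h2]
    norm_num
  · rfl

/-! ### One label point, one root -/

section slot

variable {Al : ℕ → Pt → Prop} {o : ℤ} {M : Pt} {l : ℝ} {R : Slt ι} {κ E : ℝ}
  {sx : ℤ → ℕ → ℤ → ℤ → ℝ}

/-- **The deviations of lag `c` in the letters of (S1).** -/
theorem dev_one
    (hs0 : ∀ x1 k a b,
      ((b, o - 2 - a - ix k x1 - b, ix k x1) : Pt) ∉ H677.sN Al o K M (2 ^ k * a) k →
      sx x1 k a b = 0)
    (hR : ∀ x0 j z x1, R x0 j z x1 = Rm (MT l (KT l u x1)) o x1 (sx x1) K j x0 z)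
    (c N : ℕ) (hN : N ≤ K) (hc : ∀ k < N, k + c ≤ K) (sh x1 : ℤ) (T Y : Finset ℤ)
    (w : ℤ → ι → ℝ) :
    ∑ y ∈ Y, ∑ k ∈ range N, ∑ x0 ∈ T, kF q.Lm U.2.1 K F2 (k + 1) (x0, x1, y) ^ 2 *
        nsq ((av R sh x0 (k + c) y x1 - R x0 (k + c) y x1) *ᵥ w y) ≤
      ∑ y ∈ Y, ∑ k ∈ range (K + 1), ∑ x0 ∈ T, lagW c (wk q U K F2 x1) k x0 y *
        nsq ((Rs (Mc l K M.2.1 u x1) o x1 (sx x1) K sh k x0 (ix k (y - sh)) -
          Rm (Mc l K M.2.1 u x1) o x1 (sx x1) K k x0 y) *ᵥ w y) := by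
  refine le_trans ?_ (lag_le (A := Y) (X := T) (m := K + 1) (W := wk q U K F2 x1)
    (F := fun k x0 y => nsq ((Rs (Mc l K M.2.1 u x1) o x1 (sx x1) K sh k x0 (ix k (y - sh)) -
          Rm (Mc l K M.2.1 u x1) o x1 (sx x1) K k x0 y) *ᵥ w y))
    (fun k x0 y => wk_nonneg x1 k x0 y) (fun _ _ _ => nsq_nonneg _) c)
  refine sum_le_sum fun y _ => ?_
  have hNc : N ≤ K + 1 - c := by
    by_cases h : N = 0
    · omega
    · have := hc (N - 1) (by omega)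
      omega
  refine le_trans (le_of_eq ?_) (sum_le_sum_of_subset_of_nonneg (range_subset_range.2 hNc)
    fun k _ _ => sum_nonneg fun x0 _ => mul_nonneg (wk_nonneg x1 k x0 y) (nsq_nonneg _))
  refine sum_congr rfl fun k hk => sum_congr rfl fun x0 _ => ?_
  rw [mem_range] at hk
  have e1 : wk q U K F2 x1 k x0 y = kF q.Lm U.2.1 K F2 (k + 1) (x0, x1, y) ^ 2 := by
    unfold wk
    rw [if_pos (by omega)]
  have e2 : R x0 (k + c) y x1 = Rm (Mc l K M.2.1 u x1) o x1 (sx x1) K (k + c) x0 y := by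
    rw [hR, H483.Rm_cut (M2 := M.2.1) (H841.sgn_root (hs0 x1)) (k + c) x0 y]
    rfl
  rw [e1, H841.av_cut (M := M) hs0 hR, e2]

end slot

/-! ### The sums over the roots and the label points -/

section sums

variable {o : ℤ} {l κ0 P κ E : ℝ} {R : Slt ι}

/-- **The deviations, signed.** -/
theorem dev_signed (D : FDs q n ez F1 F2 F3 K x s r U g u v A b C Q1 Q2 Q3 v')
    (hC : H305.ClsM K x s r P κ0 U g u v) {t : ℝ} (ht : 0 < t) (hl : 0 < l)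
    (hlr : r * √s ≤ l * (r / t) ^ 2) (hl1 : 0 ≤ lam1 q s r)
    (ho : o = 1 ∨ o = -1) (hK : K ≤ n) (hez : 0 ≤ ez) (hE : 0 ≤ E)
    (hS : SlotN (q.al U K) o K (cx K x) l u R κ E) (c N : ℕ) (hN : N ≤ K)
    (hc : ∀ k < N, k + c ≤ K) (sh : ℤ) (L : ℕ) {δ : ℝ} (hδ : 0 < δ) :
    ∑ t ∈ rt (cx K x), ∑ x1 ∈ iv K (cx K x).1, ∑ x3 ∈ iv K (cx K x).2.2, ∑ k ∈ range N,
      ∑ x0 ∈ iv K t, kF q.Lm U.2.1 K F2 (k + 1) (x0, x1, x3) ^ 2 *
        nsq ((av R sh x0 (k + c) x3 x1 - R x0 (k + c) x3 x1) *ᵥ v' x1 x3) ≤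
      3 * (1728 * ez * (1 + (L : ℝ)) ^ 3 * (s * 8 ^ K * (δ + 2 * lam1 q s r / (2 * l) *
        (E / δ + (1 + (r / t) ^ 2 / 2 / δ) / 2 ^ L)))) := by
  obtain ⟨sx, hs1, hs0, hR⟩ := hS.sgn
  have one : ∀ T ∈ rt (cx K x), ∑ x1 ∈ iv K (cx K x).1, ∑ x3 ∈ iv K (cx K x).2.2,
      ∑ k ∈ range N, ∑ x0 ∈ iv K T, kF q.Lm U.2.1 K F2 (k + 1) (x0, x1, x3) ^ 2 *
        nsq ((av R sh x0 (k + c) x3 x1 - R x0 (k + c) x3 x1) *ᵥ v' x1 x3) ≤
      1728 * ez * (1 + (L : ℝ)) ^ 3 * (s * 8 ^ K * (δ + 2 * lam1 q s r / (2 * l) *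
        (E / δ + (1 + (r / t) ^ 2 / 2 / δ) / 2 ^ L))) := by
    intro T _
    have h1 : ∀ x1 ∈ iv K (cx K x).1, ∑ x3 ∈ iv K (cx K x).2.2,
        ∑ k ∈ range N, ∑ x0 ∈ iv K T, kF q.Lm U.2.1 K F2 (k + 1) (x0, x1, x3) ^ 2 *
          nsq ((av R sh x0 (k + c) x3 x1 - R x0 (k + c) x3 x1) *ᵥ v' x1 x3) ≤
        1728 * ez * (1 + (L : ℝ)) ^ 3 * NB K L (∑ z ∈ iv K (cx K x).2.2, nsq (v' x1 z))
          (2 * lam1 q s r) (Th1 l K (cx K x).2.1 u x1) (Th1 l K (cx K x).2.1 u x1) E δ := by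
      intro x1 hx1
      refine (dev_one (M := cx K x) hs0 hR c N hN hc sh x1 (iv K T) _ (v' x1)).trans ?_
      have H := H841.hypN_slot (M := cx K x) hl ho hs1 hs0 hR hE hS.en hx1 T
      exact H64.S1s H hez (lagW_nonneg (wk_nonneg x1) c)
        (lagW_cell hez (wk_nonneg x1) (wk_line D.B2 hK hez x1) c) (by positivity)
        (al1_fib D hl1 hx1) (fun y hy => lagW_al (al1_up x1 y hy) (al1_wk x1 y hy) c) L sh hδ
    refine (sum_le_sum h1).trans ?_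
    rw [← mul_sum]
    refine mul_le_mul_of_nonneg_left ?_ (by positivity)
    exact H841.NB_sum hC.toCls hl (H841.v'_le D) (by positivity) hE hδ
      (H841.Th_le hC ht hl hlr) L
  refine (sum_le_sum one).trans (le_of_eq ?_)
  rw [sum_const, nsmul_eq_mul, card_rt3]

/-- **The deviations, any signs.** -/
theorem dev_blind (D : FDs q n ez F1 F2 F3 K x s r U g u v A b C Q1 Q2 Q3 v')
    (hC : H305.ClsM K x s r P κ0 U g u v) (hl : 0 < l) (hP : 0 ≤ P) (hl1 : 0 ≤ lam1 q s r)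
    (ho : o = 1 ∨ o = -1) (hK : K ≤ n) (hez : 0 ≤ ez)
    (hS : SlotN (q.al U K) o K (cx K x) l u R κ E) (c N : ℕ) (hN : N ≤ K)
    (hc : ∀ k < N, k + c ≤ K) (sh : ℤ) (L : ℕ) :
    ∑ t ∈ rt (cx K x), ∑ x1 ∈ iv K (cx K x).1, ∑ x3 ∈ iv K (cx K x).2.2, ∑ k ∈ range N,
      ∑ x0 ∈ iv K t, kF q.Lm U.2.1 K F2 (k + 1) (x0, x1, x3) ^ 2 *
        nsq ((av R sh x0 (k + c) x3 x1 - R x0 (k + c) x3 x1) *ᵥ v' x1 x3) ≤
      3 * (ez * ((48 + 16 * (L : ℝ) ^ 3) * (P / (2 * l) * (s * 8 ^ K)) +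
        128 * (((L : ℝ) + 2) ^ 2 + 2) / 2 ^ L * (2 * lam1 q s r / (2 * l) * (s * 8 ^ K)))) := by
  obtain ⟨sx, hs1, hs0, hR⟩ := hS.sgn
  have e8 : (8 : ℝ) ^ K = 2 ^ K * 4 ^ K := by rw [← mul_pow]; norm_num
  have one : ∀ T ∈ rt (cx K x), ∑ x1 ∈ iv K (cx K x).1, ∑ x3 ∈ iv K (cx K x).2.2,
      ∑ k ∈ range N, ∑ x0 ∈ iv K T, kF q.Lm U.2.1 K F2 (k + 1) (x0, x1, x3) ^ 2 *
        nsq ((av R sh x0 (k + c) x3 x1 - R x0 (k + c) x3 x1) *ᵥ v' x1 x3) ≤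
      ez * ((48 + 16 * (L : ℝ) ^ 3) * (P / (2 * l) * (s * 8 ^ K)) +
        128 * (((L : ℝ) + 2) ^ 2 + 2) / 2 ^ L * (2 * lam1 q s r / (2 * l) * (s * 8 ^ K))) := by
    intro T _
    have h1 : ∀ x1 ∈ iv K (cx K x).1, ∑ x3 ∈ iv K (cx K x).2.2,
        ∑ k ∈ range N, ∑ x0 ∈ iv K T, kF q.Lm U.2.1 K F2 (k + 1) (x0, x1, x3) ^ 2 *
          nsq ((av R sh x0 (k + c) x3 x1 - R x0 (k + c) x3 x1) *ᵥ v' x1 x3) ≤
        ez * ((48 + 16 * (L : ℝ) ^ 3) * (2 ^ K * ∑ y ∈ iv K (cx K x).2.2,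
            Qf (cJ l K (cx K x).2.1) (uJ K (cx K x).2.1 u x1) (v' x1 y)) +
          128 * (((L : ℝ) + 2) ^ 2 + 2) / 2 ^ L *
            (2 * lam1 q s r * Th1 l K (cx K x).2.1 u x1 * 4 ^ K)) := by
      intro x1 hx1
      refine (dev_one (M := cx K x) hs0 hR c N hN hc sh x1 (iv K T) _ (v' x1)).trans ?_
      exact H841.S1b hl ho (hs1 x1) hez (lagW_nonneg (wk_nonneg x1) c)
        (lagW_cell hez (wk_nonneg x1) (wk_line D.B2 hK hez x1) c) (by positivity)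
        (al1_fib D hl1 hx1) (fun y hy => lagW_al (al1_up x1 y hy) (al1_wk x1 y hy) c) L sh
    refine (sum_le_sum h1).trans ?_
    rw [← mul_sum, sum_add_distrib]
    refine mul_le_mul_of_nonneg_left (add_le_add ?_ ?_) hez
    · rw [← mul_sum, ← mul_sum]
      refine mul_le_mul_of_nonneg_left ?_ (by positivity)
      have h2 := mul_le_mul_of_nonneg_left (H841.Q_sumC hC.toCls hl hP (H841.v'_le D))
        (by positivity : (0 : ℝ) ≤ 2 ^ K)
      refine h2.trans (le_of_eq ?_)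
      rw [e8]
      field_simp
    · rw [← mul_sum]
      refine mul_le_mul_of_nonneg_left ?_ (by positivity)
      have h3 : ∑ x1 ∈ iv K (cx K x).1, 2 * lam1 q s r * Th1 l K (cx K x).2.1 u x1 * 4 ^ K =
          2 * lam1 q s r * 4 ^ K * ∑ x1 ∈ iv K (cx K x).1, Th1 l K (cx K x).2.1 u x1 := by
        rw [mul_sum]
        exact sum_congr rfl fun x1 _ => by ring
      rw [h3]
      have h2 := mul_le_mul_of_nonneg_left (H841.Th_sumC hC.toCls hl)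
        (by positivity : (0 : ℝ) ≤ 2 * lam1 q s r * 4 ^ K)
      refine h2.trans (le_of_eq ?_)
      rw [e8]
      field_simp
  refine (sum_le_sum one).trans (le_of_eq ?_)
  rw [sum_const, nsmul_eq_mul, card_rt3]

end sums

end

end Vale.Agent.P141.H124
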