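import Vale.Agent.P141.H871.Aff
import Vale.Agent.P141.H224.SupR

/-!
# P141, line (A): the affected mass at hub `x₁`, slot of a coarser scale

Letters of `H841.Lay`, `H876.ShiftA`, `H871.Aff`.

* `stop_up` : `H871.stop_num` with the slot of the scale `φ k ≥ k` (factor `4`, maximal function);
* `dev_up` : `H876.S1` with the slot of the scale `k + c` against the weight of the scale `k`;
* `aff_line_up`, `aff_num_up` : the affected mass with the slot `Rs` of the scale `k + 1 + l`.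
-/

namespace Vale.Agent.P141.H124

open Finset Matrix
open Vale.Agent.P141.PL (iv ix hs mem_iv ix_ix card_iv)
open Vale.Agent.P141.PL.H571 (dav S S_nonneg S_mono S_congr dav_le_S doob_block dav_nonneg)
open Vale.Agent.P141.H922 (ck iv_iv)
open Vale.Agent.P141.H43 (nsq nsq_nonneg)
open Vale.Agent.P141.H841 (Lm Rm Rs nsq_add_le)
open Vale.Agent.P141.H876 (En wn S1 wt_cell)
open Vale.Agent.P141.H224 (Nx Nx_nonneg Nx_anti Nx_congr vR vR_ix Rm_mart0 mart_le_dav sum_W_cell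
  ix_mono)
open Vale.Agent.P141.H871 (cnt cnt_pt cnt_anti cnt_step Rm_end)

noncomputable section

open scoped Classical

variable {ι : Type*} [Fintype ι]

variable {Mx : ℕ → ℤ → Matrix ι ι ℝ} {o x1 T M3 : ℤ} {n : ℕ} {s : ℕ → ℤ → ℤ → ℝ}

/-- the norm of the end slot -/
def gR (Mx : ℕ → ℤ → Matrix ι ι ℝ) (o x1 : ℤ) (s : ℕ → ℤ → ℤ → ℝ) (n : ℕ) (y : ℤ) (w : ι → ℝ)
    (x : ℤ) : ℝ := √(nsq (vR Mx o x1 s n y w 0 x))

theorem Nx_le {g : ℤ → ℝ} (hg : ∀ x, 0 ≤ g x) (x : ℤ) {k j : ℕ} (h : k ≤ j) :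
    Nx g n j x ≤ Nx g n k x := by
  induction j, h using Nat.le_induction with
  | base => exact le_rfl
  | succ j _ ih => exact (Nx_anti hg j x).trans ih

/-- the slot of the scale `j` is below the maximal function of every finer scale -/
theorem Rm_le_Nx {k j : ℕ} (hk : k ≤ j) (hj : j ≤ n) (x0 y : ℤ) (w : ι → ℝ) :
    nsq (Rm Mx o x1 s n j x0 y *ᵥ w) ≤ Nx (gR Mx o x1 s n y w) n k x0 := by
  have hg : ∀ x, 0 ≤ gR Mx o x1 s n y w x := fun x => Real.sqrt_nonneg _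
  refine le_trans ?_ (Nx_le hg x0 hk)
  have h1 := mart_le_dav (V := vR Mx o x1 s n y w) (Rm_mart0 y w) hj (ix j x0)
  have h2 := dav_le_S (gR Mx o x1 s n y w) n (n - j) x0
  rw [Nat.sub_sub_self hj] at h2
  rw [← vR_ix]
  have h3 := Real.sq_sqrt (nsq_nonneg (vR Mx o x1 s n y w j (ix j x0)))
  rw [← h3]
  unfold H224.Nx
  rw [if_pos hj]
  exact pow_le_pow_left₀ (Real.sqrt_nonneg _) (h1.trans h2) 2

/-- Doob for the end slot -/
theorem sum_Nx (hs1 : ∀ k a b, |s k a b| ≤ 1) (ho : o = 1 ∨ o = -1) (y : ℤ) (hy : ix n y = M3)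
    (w : ι → ℝ) : ∑ x0 ∈ iv n T, Nx (gR Mx o x1 s n y w) n 0 x0 ≤
      4 * ∑ i ∈ range n, En Mx n T x1 M3 (i + 1) w := by
  have hg : ∀ x, 0 ≤ gR Mx o x1 s n y w x := fun x => Real.sqrt_nonneg _
  have h1 : ∑ x0 ∈ iv n T, Nx (gR Mx o x1 s n y w) n 0 x0 ≤
      4 * ∑ x0 ∈ iv n T, gR Mx o x1 s n y w x0 ^ 2 := by
    unfold H224.Nx
    simp only [if_pos (Nat.zero_le n), Nat.sub_zero]
    rw [H224.iv_Ico]
    have h := doob_block hg (by norm_num : (1 : ℝ) < 2) n T (T + 1)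
    have e2 : ((2 : ℝ) / (2 - 1)) ^ (2 : ℝ) = 4 := by norm_num
    rw [e2] at h
    simp only [Real.rpow_two] at h
    exact h
  refine h1.trans (mul_le_mul_of_nonneg_left ?_ (by norm_num))
  refine le_trans (le_of_eq ?_) (Rm_end (T := T) hs1 ho y hy w)
  refine sum_congr rfl fun x0 _ => ?_
  unfold gR
  rw [Real.sq_sqrt (nsq_nonneg _)]
  have e1 : x0 = ix 0 x0 := by
    unfold PL.ix
    norm_num
  have h := vR_ix (Mx := Mx) (o := o) (x1 := x1) (s := s) (n := n) y w 0 x0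
  rw [← e1] at h
  rw [h]

/-- **The affected cells with the count `c + 1`, slot of a coarser scale.** -/
theorem stop_up_one (hs1 : ∀ k a b, |s k a b| ≤ 1) (ho : o = 1 ∨ o = -1) (W : ℕ → ℤ → ℝ) {e : ℝ}
    (he : 0 ≤ e) (hW0 : ∀ k x, 0 ≤ W k x) (hW : ∀ k ≤ n, ∀ j, ∑ x ∈ iv k j, W k x ≤ e * 2 ^ k)
    (a : ℕ → ℤ → Prop) (y : ℤ) (w : ι → ℝ) (hy : ix n y = M3) (φ : ℕ → ℕ)
    (hφ : ∀ k < n, k ≤ φ k ∧ φ k ≤ n) (c : ℕ) :
    ∑ k ∈ range n, ∑ x0 ∈ iv n T, (if a k (ix k x0) ∧ cnt a n k (ix k x0) = c + 1 then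
      W k x0 * nsq (Rm Mx o x1 s n (φ k) x0 y *ᵥ w) else 0) ≤
      4 * (e * ∑ i ∈ range n, En Mx n T x1 M3 (i + 1) w) := by
  set g := gR Mx o x1 s n y w with hgd
  have hg : ∀ x, 0 ≤ g x := fun x => Real.sqrt_nonneg _
  set D : ℕ → ℤ → ℝ := fun k x => if a k (ix k x) ∧ cnt a n k (ix k x) = c + 1 then Nx g n k x
    else 0 with hD
  have hD0 : ∀ k x, 0 ≤ D k x := by
    intro k x
    simp only [hD]
    split_ifs
    · exact Nx_nonneg g n k x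
    · exact le_rfl
  have step1 : ∀ k ∈ range n, ∑ x0 ∈ iv n T, (if a k (ix k x0) ∧ cnt a n k (ix k x0) = c + 1 then
      W k x0 * nsq (Rm Mx o x1 s n (φ k) x0 y *ᵥ w) else 0) ≤ e * ∑ x0 ∈ iv n T, D k x0 := by
    intro k hk
    rw [mem_range] at hk
    obtain ⟨p1, p2⟩ := hφ k hk
    refine le_trans (sum_le_sum fun x0 _ => ?_) (sum_W_cell hk.le (hW k hk.le) T (hD0 k) ?_)
    · simp only [hD]
      split_ifs
      · exact mul_le_mul_of_nonneg_left (Rm_le_Nx p1 p2 x0 y w) (hW0 k x0)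
      · rw [mul_zero]
    · intro x z h
      simp only [hD]
      rw [h, Nx_congr h]
  refine (sum_le_sum step1).trans ?_
  rw [← mul_sum, sum_comm]
  have h2 : ∀ x0 ∈ iv n T, ∑ k ∈ range n, D k x0 ≤ Nx g n 0 x0 := by
    intro x0 _
    by_cases hex : ∃ k ∈ range n, a k (ix k x0) ∧ cnt a n k (ix k x0) = c + 1
    · obtain ⟨k, hk, h1, h2⟩ := hex
      rw [mem_range] at hk
      have huniq : ∀ j ∈ range n, j ≠ k → ¬ (a j (ix j x0) ∧ cnt a n j (ix j x0) = c + 1) := by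
        rintro j hj hjk ⟨h3, h4⟩
        rw [mem_range] at hj
        rcases lt_or_gt_of_ne hjk with h | h
        · have h5 := cnt_step a hj x0 h3
          have h6 := cnt_anti a n x0 (k := j + 1) (j := k) h
          omega
        · have h5 := cnt_step a hk x0 h1
          have h6 := cnt_anti a n x0 (k := k + 1) (j := j) h
          omega
      have hz : ∀ j ∈ range n, j ≠ k → D j x0 = 0 := fun j hj hjk => if_neg (huniq j hj hjk)
      rw [sum_eq_single_of_mem k (mem_range.2 hk) hz]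
      have hk1 : D k x0 = Nx g n k x0 := if_pos ⟨h1, h2⟩
      rw [hk1]
      exact Nx_le hg x0 (Nat.zero_le k)
    · rw [sum_eq_zero]
      · exact Nx_nonneg g n 0 x0
      · intro k hk
        exact if_neg fun h => hex ⟨k, hk, h⟩
  have h3 := (sum_le_sum h2).trans (sum_Nx (Mx := Mx) (x1 := x1) (T := T) hs1 ho y hy w)
  have h4 := mul_le_mul_of_nonneg_left h3 he
  linarith

/-- **The affected cells with the count at most `lam`, slot of a coarser scale.** -/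
theorem stop_up (hs1 : ∀ k a b, |s k a b| ≤ 1) (ho : o = 1 ∨ o = -1) (W : ℕ → ℤ → ℝ) {e : ℝ}
    (hW0 : ∀ k x, 0 ≤ W k x) (hW : ∀ k ≤ n, ∀ j, ∑ x ∈ iv k j, W k x ≤ e * 2 ^ k)
    (a : ℕ → ℤ → Prop) (y : ℤ) (w : ι → ℝ) (hy : ix n y = M3) (φ : ℕ → ℕ)
    (hφ : ∀ k < n, k ≤ φ k ∧ φ k ≤ n) (lam : ℕ) :
    ∑ k ∈ range n, ∑ x0 ∈ iv n T, (if a k (ix k x0) ∧ cnt a n k (ix k x0) ≤ lam then
      W k x0 * nsq (Rm Mx o x1 s n (φ k) x0 y *ᵥ w) else 0) ≤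
      lam * (4 * (e * ∑ i ∈ range n, En Mx n T x1 M3 (i + 1) w)) := by
  have he : 0 ≤ e := by
    have h3 := (sum_nonneg fun x _ => hW0 0 x).trans (hW 0 (Nat.zero_le _) 0)
    simpa using h3
  have h1 : ∀ k ∈ range n, ∑ x0 ∈ iv n T, (if a k (ix k x0) ∧ cnt a n k (ix k x0) ≤ lam then
      W k x0 * nsq (Rm Mx o x1 s n (φ k) x0 y *ᵥ w) else 0) ≤
      ∑ x0 ∈ iv n T, ∑ c ∈ range lam, (if a k (ix k x0) ∧ cnt a n k (ix k x0) = c + 1 then
      W k x0 * nsq (Rm Mx o x1 s n (φ k) x0 y *ᵥ w) else 0) := by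
    intro k hk
    rw [mem_range] at hk
    refine sum_le_sum fun x0 _ => ?_
    have hn : ∀ c ∈ range lam, 0 ≤ (if a k (ix k x0) ∧ cnt a n k (ix k x0) = c + 1 then
      W k x0 * nsq (Rm Mx o x1 s n (φ k) x0 y *ᵥ w) else 0) := by
      intro c _
      split_ifs
      · exact mul_nonneg (hW0 _ _) (nsq_nonneg _)
      · exact le_rfl
    split_ifs with h
    · have h5 := cnt_step a hk x0 h.1
      have hc : cnt a n (k + 1) (ix (k + 1) x0) ∈ range lam := by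
        rw [mem_range]
        omega
      refine le_trans (le_of_eq ?_) (single_le_sum hn hc)
      rw [if_pos ⟨h.1, h5⟩]
    · exact sum_nonneg hn
  refine (sum_le_sum h1).trans ?_
  have h2 : ∑ k ∈ range n, ∑ x0 ∈ iv n T, ∑ c ∈ range lam,
      (if a k (ix k x0) ∧ cnt a n k (ix k x0) = c + 1 then
      W k x0 * nsq (Rm Mx o x1 s n (φ k) x0 y *ᵥ w) else 0) =
      ∑ c ∈ range lam, ∑ k ∈ range n, ∑ x0 ∈ iv n T,
      (if a k (ix k x0) ∧ cnt a n k (ix k x0) = c + 1 then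
      W k x0 * nsq (Rm Mx o x1 s n (φ k) x0 y *ᵥ w) else 0) := by
    rw [sum_comm]
    rw [sum_congr rfl fun x0 _ => sum_comm]
    rw [sum_comm]
    refine sum_congr rfl fun c _ => ?_
    rw [sum_comm]
  rw [h2]
  refine (sum_le_sum fun c _ => stop_up_one hs1 ho W he hW0 hW a y w hy φ hφ c).trans
    (le_of_eq ?_)
  rw [sum_const, card_range, nsmul_eq_mul]

/-- **(S1) against the weights of a finer scale.** -/
theorem dev_up (hs1 : ∀ k a b, |s k a b| ≤ 1) (ho : o = 1 ∨ o = -1) {Q : (ι → ℝ) → ℝ}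
    (hX : ∀ a, ∑ i ∈ range n, En Mx n T x1 M3 (i + 1) a ≤ 2 ^ n * Q a)
    {W : ℕ → ℤ → ℤ → ℝ} {e : ℝ} (he : 0 ≤ e) (hW0 : ∀ k x0 y, 0 ≤ W k x0 y)
    (hW : ∀ k ≤ n, ∀ j y, ∑ x0 ∈ iv k j, W k x0 y ≤ e * 2 ^ k)
    {θ : ℕ → ℤ → ℝ} (hθ0 : ∀ k m, 0 ≤ θ k m)
    (hθ : ∀ k m a, nsq (Mx k m *ᵥ a) ≤ θ k m * nsq a) {Θ : ℝ}
    (hΘ : ∑ i ∈ range n, 2 ^ (i + 1) * ∑ R ∈ wn n T x1 M3, ∑ m ∈ iv (n - (i + 1)) R, θ (i + 1) m ≤
      Θ * 2 ^ n) {v : ℤ → ι → ℝ} {V : ℝ} (hV : ∀ y ∈ iv n M3, nsq (v y) ≤ V) (L : ℕ) (sh : ℤ)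
    (c : ℕ) :
    ∑ y ∈ iv n M3, ∑ k ∈ range (n + 1 - c), ∑ x0 ∈ iv n T, W k x0 y *
        nsq ((Rs Mx o x1 s n sh (k + c) x0 (ix (k + c) (y - sh)) - Rm Mx o x1 s n (k + c) x0 y) *ᵥ
          v y) ≤
      e * ((48 + 16 * (L : ℝ) ^ 3) * (2 ^ n * ∑ y ∈ iv n M3, Q (v y)) +
        64 * (((L : ℝ) + 2) ^ 2 + 2) / 2 ^ L * (V * Θ * 4 ^ n)) := by
  set W' : ℕ → ℤ → ℤ → ℝ := fun j x0 y => if j < c then 0 else W (j - c) x0 y with hW'
  have hW0' : ∀ k x0 y, 0 ≤ W' k x0 y := by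
    intro k x0 y
    simp only [hW']
    split_ifs
    · exact le_rfl
    · exact hW0 _ _ _
  have hWs' : ∀ k ≤ n, ∀ j y, ∑ x0 ∈ iv k j, W' k x0 y ≤ e * 2 ^ k := by
    intro k hk j y
    by_cases hc : k < c
    · simp only [hW', if_pos hc, sum_const_zero]
      positivity
    · have e1 : ∀ x0, W' k x0 y = W (k - c) x0 y := fun x0 => by
        simp only [hW', if_neg hc]
      simp only [e1]
      have h := wt_cell (fun x => hW0 (k - c) x y) (fun j => hW (k - c) (by omega) j y) k j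
      have e2 : k - c - k = 0 := by omega
      rw [e2, pow_zero, mul_one] at h
      exact h
  refine le_trans (sum_le_sum fun y _ => ?_) (S1 (T := T) hs1 ho hX he hW0' hWs' hθ0 hθ hΘ hV L sh)
  set f : ℕ → ℝ := fun j => ∑ x0 ∈ iv n T, W' j x0 y *
    nsq ((Rs Mx o x1 s n sh j x0 (ix j (y - sh)) - Rm Mx o x1 s n j x0 y) *ᵥ v y) with hf
  have hf0 : ∀ j, 0 ≤ f j := fun j => sum_nonneg fun x _ => mul_nonneg (hW0' _ _ _) (nsq_nonneg _)
  have e3 : ∑ k ∈ range (n + 1 - c), ∑ x0 ∈ iv n T, W k x0 y *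
        nsq ((Rs Mx o x1 s n sh (k + c) x0 (ix (k + c) (y - sh)) - Rm Mx o x1 s n (k + c) x0 y) *ᵥ
          v y) = ∑ k ∈ range (n + 1 - c), f (k + c) := by
    refine sum_congr rfl fun k _ => sum_congr rfl fun x0 _ => ?_
    simp only [hW']
    rw [if_neg (by omega), Nat.add_sub_cancel]
  rw [e3]
  have e4 : ∑ k ∈ range (n + 1 - c), f (k + c) = ∑ j ∈ (range (n + 1 - c)).image (· + c), f j := by
    rw [sum_image]
    intro a _ b _ h
    simpa using h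
  rw [e4]
  refine sum_le_sum_of_subset_of_nonneg (fun j hj => ?_) fun j _ _ => hf0 j
  rw [mem_image] at hj
  obtain ⟨i, hi, rfl⟩ := hj
  rw [mem_range] at hi ⊢
  omega

/-- **The affected mass with the slot of the scale `k + 1 + l`**, one point `x₁`. -/
theorem aff_line_up (hs1 : ∀ k a b, |s k a b| ≤ 1) (ho : o = 1 ∨ o = -1) {Q : (ι → ℝ) → ℝ}
    (hX : ∀ a, ∑ i ∈ range n, En Mx n T x1 M3 (i + 1) a ≤ 2 ^ n * Q a)
    {W : ℕ → ℤ → ℤ → ℝ} {e : ℝ} (he : 0 ≤ e) (hW0 : ∀ k x0 y, 0 ≤ W k x0 y)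
    (hW : ∀ k ≤ n, ∀ j y, ∑ x0 ∈ iv k j, W k x0 y ≤ e * 2 ^ k) (v : ℤ → ι → ℝ) (sh : ℤ) (l : ℕ)
    (AF : ℕ → ℤ → ℤ → Prop) (lam : ℕ) {DS TM : ℝ}
    (hD : ∑ y ∈ iv n M3, ∑ k ∈ range (n - l), ∑ x0 ∈ iv n T, W k x0 y *
        nsq ((Rs Mx o x1 s n sh (k + 1 + l) x0 (ix (k + 1 + l) (y - sh)) -
          Rm Mx o x1 s n (k + 1 + l) x0 y) *ᵥ v y) ≤ DS)
    (hT : ∑ k ∈ range (n - l), ∑ x0 ∈ iv n T, ∑ y ∈ iv n M3,
      (if AF k (ix k x0) y ∧ lam < cnt (fun k q => AF k q y) n k (ix k x0) then W k x0 y *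
        nsq (Rs Mx o x1 s n sh (k + 1 + l) x0 (ix (k + 1 + l) (y - sh)) *ᵥ v y) else 0) ≤ TM) :
    ∑ k ∈ range (n - l), ∑ x0 ∈ iv n T, ∑ y ∈ iv n M3, (if AF k (ix k x0) y then W k x0 y *
        nsq (Rs Mx o x1 s n sh (k + 1 + l) x0 (ix (k + 1 + l) (y - sh)) *ᵥ v y) else 0) ≤
      2 * DS + 2 * (lam * (4 * (e * (2 ^ n * ∑ y ∈ iv n M3, Q (v y))))) + TM := by
  -- the head
  have hH : ∑ k ∈ range (n - l), ∑ x0 ∈ iv n T, ∑ y ∈ iv n M3,
      (if AF k (ix k x0) y ∧ cnt (fun k q => AF k q y) n k (ix k x0) ≤ lam then W k x0 y *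
        nsq (Rm Mx o x1 s n (k + 1 + l) x0 y *ᵥ v y) else 0) ≤
      lam * (4 * (e * (2 ^ n * ∑ y ∈ iv n M3, Q (v y)))) := by
    have h1 : ∀ y ∈ iv n M3, ∑ k ∈ range (n - l), ∑ x0 ∈ iv n T,
        (if AF k (ix k x0) y ∧ cnt (fun k q => AF k q y) n k (ix k x0) ≤ lam then W k x0 y *
          nsq (Rm Mx o x1 s n (k + 1 + l) x0 y *ᵥ v y) else 0) ≤
        lam * (4 * (e * (2 ^ n * Q (v y)))) := by
      intro y hy
      rw [mem_iv] at hy
      have h2 := stop_up (Mx := Mx) (x1 := x1) (T := T) hs1 ho (fun k x => W k x y)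
        (fun k x => hW0 k x y) (fun k hk j => hW k hk j y) (fun k q => AF k q y) y (v y) hy
        (fun k => min (k + 1 + l) n) (fun k hk => ⟨by omega, by omega⟩) lam
      beta_reduce at h2
      have h3 : ∑ k ∈ range (n - l), ∑ x0 ∈ iv n T,
          (if AF k (ix k x0) y ∧ cnt (fun k q => AF k q y) n k (ix k x0) ≤ lam then W k x0 y *
            nsq (Rm Mx o x1 s n (k + 1 + l) x0 y *ᵥ v y) else 0) ≤
          ∑ k ∈ range n, ∑ x0 ∈ iv n T,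
          (if AF k (ix k x0) y ∧ cnt (fun k q => AF k q y) n k (ix k x0) ≤ lam then W k x0 y *
            nsq (Rm Mx o x1 s n (min (k + 1 + l) n) x0 y *ᵥ v y) else 0) := by
        have e1 : ∀ k ∈ range (n - l), ∑ x0 ∈ iv n T,
            (if AF k (ix k x0) y ∧ cnt (fun k q => AF k q y) n k (ix k x0) ≤ lam then W k x0 y *
              nsq (Rm Mx o x1 s n (k + 1 + l) x0 y *ᵥ v y) else 0) =
            ∑ x0 ∈ iv n T,
            (if AF k (ix k x0) y ∧ cnt (fun k q => AF k q y) n k (ix k x0) ≤ lam then W k x0 y *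
              nsq (Rm Mx o x1 s n (min (k + 1 + l) n) x0 y *ᵥ v y) else 0) := by
          intro k hk
          rw [mem_range] at hk
          rw [min_eq_left (by omega)]
        rw [sum_congr rfl e1]
        refine sum_le_sum_of_subset_of_nonneg (fun k hk => ?_) fun k _ _ =>
          sum_nonneg fun x0 _ => ?_
        · rw [mem_range] at hk ⊢
          omega
        · split_ifs
          · exact mul_nonneg (hW0 _ _ _) (nsq_nonneg _)
          · exact le_rfl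
      refine (h3.trans h2).trans ?_
      refine mul_le_mul_of_nonneg_left ?_ (Nat.cast_nonneg lam)
      refine mul_le_mul_of_nonneg_left ?_ (by norm_num)
      exact mul_le_mul_of_nonneg_left (hX (v y)) he
    have h4 : ∑ k ∈ range (n - l), ∑ x0 ∈ iv n T, ∑ y ∈ iv n M3,
        (if AF k (ix k x0) y ∧ cnt (fun k q => AF k q y) n k (ix k x0) ≤ lam then W k x0 y *
          nsq (Rm Mx o x1 s n (k + 1 + l) x0 y *ᵥ v y) else 0) =
        ∑ y ∈ iv n M3, ∑ k ∈ range (n - l), ∑ x0 ∈ iv n T,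
        (if AF k (ix k x0) y ∧ cnt (fun k q => AF k q y) n k (ix k x0) ≤ lam then W k x0 y *
          nsq (Rm Mx o x1 s n (k + 1 + l) x0 y *ᵥ v y) else 0) := by
      rw [sum_congr rfl fun k _ => sum_comm, sum_comm]
    rw [h4]
    refine (sum_le_sum h1).trans (le_of_eq ?_)
    simp only [← mul_sum]
  have hD' : ∑ k ∈ range (n - l), ∑ x0 ∈ iv n T, ∑ y ∈ iv n M3, W k x0 y *
        nsq ((Rs Mx o x1 s n sh (k + 1 + l) x0 (ix (k + 1 + l) (y - sh)) -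
          Rm Mx o x1 s n (k + 1 + l) x0 y) *ᵥ v y) ≤ DS := by
    refine le_trans (le_of_eq ?_) hD
    rw [sum_congr rfl fun k _ => sum_comm, sum_comm]
  have hp : ∀ k x0 y, (if AF k (ix k x0) y then W k x0 y *
        nsq (Rs Mx o x1 s n sh (k + 1 + l) x0 (ix (k + 1 + l) (y - sh)) *ᵥ v y) else 0) ≤
      2 * (W k x0 y * nsq ((Rs Mx o x1 s n sh (k + 1 + l) x0 (ix (k + 1 + l) (y - sh)) -
          Rm Mx o x1 s n (k + 1 + l) x0 y) *ᵥ v y)) +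
      2 * (if AF k (ix k x0) y ∧ cnt (fun k q => AF k q y) n k (ix k x0) ≤ lam then W k x0 y *
        nsq (Rm Mx o x1 s n (k + 1 + l) x0 y *ᵥ v y) else 0) +
      (if AF k (ix k x0) y ∧ lam < cnt (fun k q => AF k q y) n k (ix k x0) then W k x0 y *
        nsq (Rs Mx o x1 s n sh (k + 1 + l) x0 (ix (k + 1 + l) (y - sh)) *ᵥ v y) else 0) := by
    intro k x0 y
    have hw := hW0 k x0 y
    have n1 := nsq_nonneg ((Rs Mx o x1 s n sh (k + 1 + l) x0 (ix (k + 1 + l) (y - sh)) -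
          Rm Mx o x1 s n (k + 1 + l) x0 y) *ᵥ v y)
    have n2 := nsq_nonneg (Rm Mx o x1 s n (k + 1 + l) x0 y *ᵥ v y)
    have h3 := nsq_add_le
      ((Rs Mx o x1 s n sh (k + 1 + l) x0 (ix (k + 1 + l) (y - sh)) -
        Rm Mx o x1 s n (k + 1 + l) x0 y) *ᵥ v y) (Rm Mx o x1 s n (k + 1 + l) x0 y *ᵥ v y)
    rw [← add_mulVec, sub_add_cancel] at h3
    have h4 := mul_le_mul_of_nonneg_left h3 hw
    have m1 := mul_nonneg hw n1
    have m2 := mul_nonneg hw n2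
    by_cases ha : AF k (ix k x0) y
    · rcases le_or_gt (cnt (fun k q => AF k q y) n k (ix k x0)) lam with hc | hc
      · rw [if_pos ha, if_pos ⟨ha, hc⟩, if_neg fun h => absurd h.2 (not_lt.2 hc)]
        linarith
      · rw [if_pos ha, if_neg fun h => absurd h.2 (not_le.2 hc), if_pos ⟨ha, hc⟩]
        linarith
    · rw [if_neg ha, if_neg fun h => ha h.1, if_neg fun h => ha h.1]
      linarith
  refine (sum_le_sum fun k _ => sum_le_sum fun x0 _ => sum_le_sum fun y _ => hp k x0 y).trans ?_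
  simp only [sum_add_distrib, ← mul_sum]
  linarith

/-- **The same with the number of `H876.S1`.** -/
theorem aff_num_up (hs1 : ∀ k a b, |s k a b| ≤ 1) (ho : o = 1 ∨ o = -1) {Q : (ι → ℝ) → ℝ}
    (hX : ∀ a, ∑ i ∈ range n, En Mx n T x1 M3 (i + 1) a ≤ 2 ^ n * Q a)
    {W : ℕ → ℤ → ℤ → ℝ} {e : ℝ} (he : 0 ≤ e) (hW0 : ∀ k x0 y, 0 ≤ W k x0 y)
    (hW : ∀ k ≤ n, ∀ j y, ∑ x0 ∈ iv k j, W k x0 y ≤ e * 2 ^ k)
    {θ : ℕ → ℤ → ℝ} (hθ0 : ∀ k m, 0 ≤ θ k m)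
    (hθ : ∀ k m a, nsq (Mx k m *ᵥ a) ≤ θ k m * nsq a) {Θ : ℝ}
    (hΘ : ∑ i ∈ range n, 2 ^ (i + 1) * ∑ R ∈ wn n T x1 M3, ∑ m ∈ iv (n - (i + 1)) R, θ (i + 1) m ≤
      Θ * 2 ^ n) {v : ℤ → ι → ℝ} {V : ℝ} (hV : ∀ y ∈ iv n M3, nsq (v y) ≤ V) (L : ℕ) (sh : ℤ)
    (l : ℕ) (AF : ℕ → ℤ → ℤ → Prop) (lam : ℕ) {TM : ℝ}
    (hT : ∑ k ∈ range (n - l), ∑ x0 ∈ iv n T, ∑ y ∈ iv n M3,
      (if AF k (ix k x0) y ∧ lam < cnt (fun k q => AF k q y) n k (ix k x0) then W k x0 y *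
        nsq (Rs Mx o x1 s n sh (k + 1 + l) x0 (ix (k + 1 + l) (y - sh)) *ᵥ v y) else 0) ≤ TM) :
    ∑ k ∈ range (n - l), ∑ x0 ∈ iv n T, ∑ y ∈ iv n M3, (if AF k (ix k x0) y then W k x0 y *
        nsq (Rs Mx o x1 s n sh (k + 1 + l) x0 (ix (k + 1 + l) (y - sh)) *ᵥ v y) else 0) ≤
      e * ((96 + 8 * lam + 32 * (L : ℝ) ^ 3) * (2 ^ n * ∑ y ∈ iv n M3, Q (v y)) +
        128 * (((L : ℝ) + 2) ^ 2 + 2) / 2 ^ L * (V * Θ * 4 ^ n)) + TM := by
  have h1 := dev_up (T := T) hs1 ho hX he hW0 hW hθ0 hθ hΘ hV L sh (l + 1)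
  have e1 : n + 1 - (l + 1) = n - l := by omega
  rw [e1] at h1
  have e2 : ∀ k, k + (l + 1) = k + 1 + l := fun k => by omega
  simp only [e2] at h1
  refine (aff_line_up (T := T) hs1 ho hX he hW0 hW v sh l AF lam h1 hT).trans (le_of_eq ?_)
  ring

end

end Vale.Agent.P141.H124
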