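import Vale.Agent.P141.H483.QSh
import Vale.Agent.P141.H38.StkPR
import Vale.Agent.P141.H185.EnRs
import Vale.Agent.P141.H876.ShiftY
import Vale.Agent.P141.H550.AffT
import Vale.Agent.P141.H124.StopUp

/-!
# P141, line (A): hub `x₁`, the numbers of every lag

* `lagW`, `lag_le` : the weights moved by `c` scales satisfy the hypotheses of the weights;
* `S2_lag`, `S2a_lag`, `en_lag` : the numbers of lag `c` are the numbers of lag `0`;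
* `stop_upE`, `aff_line_upE` : the affected mass with any bound of the energy at the end;
* `tail_up` : the tail of every lag from one static mass;
* `lag_H`, `lag_O`, `lag_M` : the hypotheses `hH`, `hQo`, `hQm` of `H38.PR.stkQR` in the letters of
  `H483.QSh`.
-/

namespace Vale.Agent.P141.H124

open Finset Matrix
open Vale.Agent.P141.PL (Pt iv ix hs mem_iv ix_ix card_iv)
open Vale.Agent.P141.H43 (nsq nsq_nonneg)
open Vale.Agent.P141.H841 (Lm Rm Rs nsq_add_le)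
open Vale.Agent.P141.H876 (En wn S1 wt_cell)
open Vale.Agent.P141.H224 (Nx Nx_nonneg Nx_anti Nx_congr vR vR_ix Rm_mart0 mart_le_dav sum_W_cell
  ix_mono)
open Vale.Agent.P141.H871 (cnt cnt_pt cnt_anti cnt_step Rm_end)
open Vale.Agent.P141.PL.H571 (doob_block)
open Vale.Agent.P141.H747 (sft shC)
open Vale.Agent.P141.H483 (Rx Dx YR num_D num_R num_DR sum_shC sum4 Dx_symm)
open Vale.Agent.P141.H297.Ch (es em Mvo)

noncomputable section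

open scoped Classical

/-! ### The lagged weights -/

/-- the weights moved by `c` scales -/
def lagW (c : ℕ) (W : ℕ → ℤ → ℤ → ℝ) (j : ℕ) (x0 y : ℤ) : ℝ :=
  if j < c then 0 else W (j - c) x0 y

theorem lagW_add (c : ℕ) (W : ℕ → ℤ → ℤ → ℝ) (k : ℕ) (x0 y : ℤ) :
    lagW c W (k + c) x0 y = W k x0 y := by
  unfold lagW
  rw [if_neg (by omega), Nat.add_sub_cancel]

theorem lagW_nonneg {W : ℕ → ℤ → ℤ → ℝ} (hW0 : ∀ k x0 y, 0 ≤ W k x0 y) (c k : ℕ) (x0 y : ℤ) :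
    0 ≤ lagW c W k x0 y := by
  unfold lagW
  split_ifs
  · exact le_rfl
  · exact hW0 _ _ _

theorem lagW_cell {n : ℕ} {W : ℕ → ℤ → ℤ → ℝ} {e : ℝ} (he : 0 ≤ e)
    (hW0 : ∀ k x0 y, 0 ≤ W k x0 y)
    (hW : ∀ k ≤ n, ∀ j y, ∑ x0 ∈ iv k j, W k x0 y ≤ e * 2 ^ k) (c : ℕ) :
    ∀ k ≤ n, ∀ j y, ∑ x0 ∈ iv k j, lagW c W k x0 y ≤ e * 2 ^ k := by
  intro k hk j y
  by_cases hc : k < c
  · simp only [lagW, if_pos hc, sum_const_zero]
    positivity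
  · have e1 : ∀ x0, lagW c W k x0 y = W (k - c) x0 y := fun x0 => by
      simp only [lagW, if_neg hc]
    simp only [e1]
    have h := wt_cell (fun x => hW0 (k - c) x y) (fun j => hW (k - c) (by omega) j y) k j
    have e2 : k - c - k = 0 := by omega
    rw [e2, pow_zero, mul_one] at h
    exact h

theorem lagW_al {n : ℕ} {W : ℕ → ℤ → ℤ → ℝ} {al : ℕ → ℤ → Prop} {y : ℤ}
    (hup : ∀ k < n, al k y → al (k + 1) y) (hal : ∀ k ≤ n, ¬ al k y → ∀ x0, W k x0 y = 0)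
    (c : ℕ) : ∀ k ≤ n, ¬ al k y → ∀ x0, lagW c W k x0 y = 0 := by
  intro k hk h x0
  unfold lagW
  split_ifs with hc
  · rfl
  · refine hal (k - c) (by omega) (fun h' => h ?_) x0
    have h2 : ∀ j, k - c ≤ j → j ≤ n → al j y := by
      intro j hj
      induction j, hj using Nat.le_induction with
      | base => exact fun _ => h'
      | succ j _ ih => exact fun hj => hup j (by omega) (ih (by omega))
    exact h2 k (by omega) hk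

/-- a sum over the lagged scales -/
theorem sum_lag {f : ℕ → ℝ} (hf : ∀ j, 0 ≤ f j) (m c : ℕ) :
    ∑ k ∈ range (m - c), f (k + c) ≤ ∑ j ∈ range m, f j := by
  have e4 : ∑ k ∈ range (m - c), f (k + c) = ∑ j ∈ (range (m - c)).image (· + c), f j := by
    rw [sum_image]
    intro a _ b _ h
    simpa using h
  rw [e4]
  refine sum_le_sum_of_subset_of_nonneg (fun j hj => ?_) fun j _ _ => hf j
  rw [mem_image] at hj
  obtain ⟨i, hi, rfl⟩ := hj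
  rw [mem_range] at hi ⊢
  omega

/-- **The sum of lag `c` is a sum of lag `0` with the lagged weights.** -/
theorem lag_le {A X : Finset ℤ} {m : ℕ} {W F : ℕ → ℤ → ℤ → ℝ} (hW0 : ∀ k x0 y, 0 ≤ W k x0 y)
    (hF : ∀ k x0 y, 0 ≤ F k x0 y) (c : ℕ) :
    ∑ y ∈ A, ∑ k ∈ range (m - c), ∑ x0 ∈ X, W k x0 y * F (k + c) x0 y ≤
      ∑ y ∈ A, ∑ k ∈ range m, ∑ x0 ∈ X, lagW c W k x0 y * F k x0 y := by
  refine sum_le_sum fun y _ => ?_
  refine le_trans (le_of_eq (sum_congr rfl fun k _ => sum_congr rfl fun x0 _ => ?_))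
    (sum_lag (f := fun j => ∑ x0 ∈ X, lagW c W j x0 y * F j x0 y)
      (fun j => sum_nonneg fun x0 _ => mul_nonneg (lagW_nonneg hW0 _ _ _ _) (hF _ _ _)) m c)
  rw [lagW_add]

variable {ι : Type*} [Fintype ι]

variable {Mx : ℕ → ℤ → Matrix ι ι ℝ} {o x1 T M3 : ℤ} {n : ℕ} {s : ℕ → ℤ → ℤ → ℝ}

/-- **(S2) of lag `c`** -/
theorem S2_lag (hs1 : ∀ k a b, |s k a b| ≤ 1) (ho : o = 1 ∨ o = -1) {Q : (ι → ℝ) → ℝ}
    (hX : ∀ a, ∑ i ∈ range n, En Mx n T x1 M3 (i + 1) a ≤ 2 ^ n * Q a)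
    {W : ℕ → ℤ → ℤ → ℝ} {e : ℝ} (he : 0 ≤ e) (hW0 : ∀ k x0 y, 0 ≤ W k x0 y)
    (hW : ∀ k ≤ n, ∀ j y, ∑ x0 ∈ iv k j, W k x0 y ≤ e * 2 ^ k)
    {θ : ℕ → ℤ → ℝ} (hθ0 : ∀ k m, 0 ≤ θ k m)
    (hθ : ∀ k m a, nsq (Mx k m *ᵥ a) ≤ θ k m * nsq a) {Θ : ℝ}
    (hΘ : ∑ i ∈ range n, 2 ^ (i + 1) * ∑ R ∈ wn n T x1 M3, ∑ m ∈ iv (n - (i + 1)) R, θ (i + 1) m ≤
      Θ * 2 ^ n) {v : ℤ → ι → ℝ} {V : ℝ} (hV : ∀ y ∈ iv n M3, nsq (v y) ≤ V) (L : ℕ) (sh : ℤ)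
    (c : ℕ) :
    ∑ y ∈ iv n M3, ∑ k ∈ range (n - c), ∑ x0 ∈ iv n T, W k x0 y *
        nsq ((Rs Mx o x1 s n sh (k + c) x0 (ix (k + c) (y - sh)) -
          Rs Mx o x1 s n sh (k + c + 1) x0 (ix (k + c + 1) (y - sh))) *ᵥ v y) ≤
      e * ((386 + 128 * (L : ℝ) ^ 3) * (2 ^ n * ∑ y ∈ iv n M3, Q (v y)) +
        512 * (((L : ℝ) + 2) ^ 2 + 2) / 2 ^ L * (V * Θ * 4 ^ n)) :=
  (lag_le (F := fun k x0 y => nsq ((Rs Mx o x1 s n sh k x0 (ix k (y - sh)) -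
    Rs Mx o x1 s n sh (k + 1) x0 (ix (k + 1) (y - sh))) *ᵥ v y)) hW0
    (fun _ _ _ => nsq_nonneg _) c).trans
    (H876.S2 hs1 ho hX he (lagW_nonneg hW0 c) (lagW_cell he hW0 hW c) hθ0 hθ hΘ hV L sh)

/-- **(S2a) of lag `c`** -/
theorem S2a_lag (hs1 : ∀ k a b, |s k a b| ≤ 1) (ho : o = 1 ∨ o = -1) {Q : (ι → ℝ) → ℝ}
    (hX : ∀ a, ∑ i ∈ range n, En Mx n T x1 M3 (i + 1) a ≤ 2 ^ n * Q a)
    {W : ℕ → ℤ → ℤ → ℝ} {e : ℝ} (he : 0 ≤ e) (hW0 : ∀ k x0 y, 0 ≤ W k x0 y)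
    (hW : ∀ k ≤ n, ∀ j y, ∑ x0 ∈ iv k j, W k x0 y ≤ e * 2 ^ k)
    {θ : ℕ → ℤ → ℝ} (hθ0 : ∀ k m, 0 ≤ θ k m)
    (hθ : ∀ k m a, nsq (Mx k m *ᵥ a) ≤ θ k m * nsq a) {Θ : ℝ}
    (hΘ : ∑ i ∈ range n, H841.ep θ n T x1 M3 i ≤ Θ * 2 ^ n) {al : ℕ → ℤ → Prop} {v : ℤ → ι → ℝ}
    {V : ℝ} (hV0 : 0 ≤ V)
    (hV : ∀ k ≤ n, ∀ y, al k y → ∑ y' ∈ iv k (ix k y), nsq (v y') ≤ V * 2 ^ k)
    (hup : ∀ y ∈ iv n M3, ∀ k < n, al k y → al (k + 1) y)
    (hal : ∀ y ∈ iv n M3, ∀ k ≤ n, ¬ al k y → ∀ x0, W k x0 y = 0) (L : ℕ) (sh : ℤ) (c : ℕ) :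
    ∑ y ∈ iv n M3, ∑ k ∈ range (n - c), ∑ x0 ∈ iv n T, W k x0 y *
        nsq ((Rs Mx o x1 s n sh (k + c) x0 (ix (k + c) (y - sh)) -
          Rs Mx o x1 s n sh (k + c + 1) x0 (ix (k + c + 1) (y - sh))) *ᵥ v y) ≤
      e * ((386 + 128 * (L : ℝ) ^ 3) * (2 ^ n * ∑ y ∈ iv n M3, Q (v y)) +
        1024 * (((L : ℝ) + 2) ^ 2 + 2) / 2 ^ L * (V * Θ * 4 ^ n)) :=
  (lag_le (F := fun k x0 y => nsq ((Rs Mx o x1 s n sh k x0 (ix k (y - sh)) -
    Rs Mx o x1 s n sh (k + 1) x0 (ix (k + 1) (y - sh))) *ᵥ v y)) hW0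
    (fun _ _ _ => nsq_nonneg _) c).trans
    (H876.S2a hs1 ho hX he (lagW_nonneg hW0 c) (lagW_cell he hW0 hW c) hθ0 hθ hΘ hV0 hV hup
      (fun y hy => lagW_al (hup y hy) (hal y hy) c) L sh)

/-- **The energy of the slot of the scale `a` against the weights of the scale `k ≤ a`** -/
theorem en_lag (hs1 : ∀ k a b, |s k a b| ≤ 1) (ho : o = 1 ∨ o = -1) {Q : (ι → ℝ) → ℝ}
    (hX : ∀ a, ∑ i ∈ range n, En Mx n T x1 M3 (i + 1) a ≤ 2 ^ n * Q a)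
    {W : ℕ → ℤ → ℤ → ℝ} {e : ℝ} (he : 0 ≤ e) (hW0 : ∀ k x0 y, 0 ≤ W k x0 y)
    (hW : ∀ k ≤ n, ∀ j y, ∑ x0 ∈ iv k j, W k x0 y ≤ e * 2 ^ k)
    {θ : ℕ → ℤ → ℝ} (hθ0 : ∀ k m, 0 ≤ θ k m)
    (hθ : ∀ k m a, nsq (Mx k m *ᵥ a) ≤ θ k m * nsq a) {Θ : ℝ}
    (hΘ : ∑ i ∈ range n, 2 ^ (i + 1) * ∑ R ∈ wn n T x1 M3, ∑ m ∈ iv (n - (i + 1)) R, θ (i + 1) m ≤
      Θ * 2 ^ n) {v : ℤ → ι → ℝ} {V : ℝ} (hV : ∀ y ∈ iv n M3, nsq (v y) ≤ V) (L : ℕ) (sh : ℤ)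
    {k c : ℕ} (hk : k + c ≤ n) :
    ∑ y ∈ iv n M3, ∑ x0 ∈ iv n T, W k x0 y *
        nsq (Rs Mx o x1 s n sh (k + c) x0 (ix (k + c) (y - sh)) *ᵥ v y) ≤
      e * ((98 + 32 * (L : ℝ) ^ 3) * (2 ^ n * ∑ y ∈ iv n M3, Q (v y)) +
        128 * (((L : ℝ) + 2) ^ 2 + 2) / 2 ^ L * (V * Θ * 4 ^ n)) := by
  have h := H185.en_Rs_sum hs1 ho hX he (lagW_nonneg hW0 c) (lagW_cell he hW0 hW c) hθ0 hθ hΘ hV L
    sh hk
  simp only [lagW_add] at h
  exact h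

/-! ### The affected mass, any energy at the end -/

theorem sum_NxE (y : ℤ) (w : ι → ℝ) {EN : ℝ}
    (hE : ∑ x0 ∈ iv n T, nsq (Rm Mx o x1 s n 0 x0 y *ᵥ w) ≤ EN) :
    ∑ x0 ∈ iv n T, Nx (gR Mx o x1 s n y w) n 0 x0 ≤ 4 * EN := by
  have hg : ∀ x, 0 ≤ gR Mx o x1 s n y w x := fun x => Real.sqrt_nonneg _
  have h1 : ∑ x0 ∈ iv n T, Nx (gR Mx o x1 s n y w) n 0 x0 ≤
      4 * ∑ x0 ∈ iv n T, gR Mx o x1 s n y w x0 ^ 2 := by
    unfold H224.Nx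
    simp only [if_pos (Nat.zero_le n), Nat.sub_zero]
    rw [H224.iv_Ico]
    have h := doob_block hg (by norm_num : (1 : ℝ) < 2) n T (T + 1)
    have e2 : ((2 : ℝ) / (2 - 1)) ^ (2 : ℝ) = 4 := by norm_num
    rw [e2] at h
    simp only [Real.rpow_two] at h
    exact h
  refine h1.trans (mul_le_mul_of_nonneg_left ?_ (by norm_num))
  refine le_trans (le_of_eq ?_) hE
  refine sum_congr rfl fun x0 _ => ?_
  unfold gR
  rw [Real.sq_sqrt (nsq_nonneg _)]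
  have e1 : x0 = ix 0 x0 := by
    unfold PL.ix
    norm_num
  have h := vR_ix (Mx := Mx) (o := o) (x1 := x1) (s := s) (n := n) y w 0 x0
  rw [← e1] at h
  rw [h]

theorem stop_up_oneE (W : ℕ → ℤ → ℝ) {e : ℝ} (he : 0 ≤ e) (hW0 : ∀ k x, 0 ≤ W k x)
    (hW : ∀ k ≤ n, ∀ j, ∑ x ∈ iv k j, W k x ≤ e * 2 ^ k) (a : ℕ → ℤ → Prop) (y : ℤ) (w : ι → ℝ)
    {EN : ℝ} (hE : ∑ x0 ∈ iv n T, nsq (Rm Mx o x1 s n 0 x0 y *ᵥ w) ≤ EN) (φ : ℕ → ℕ)
    (hφ : ∀ k < n, k ≤ φ k ∧ φ k ≤ n) (c : ℕ) :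
    ∑ k ∈ range n, ∑ x0 ∈ iv n T, (if a k (ix k x0) ∧ cnt a n k (ix k x0) = c + 1 then
      W k x0 * nsq (Rm Mx o x1 s n (φ k) x0 y *ᵥ w) else 0) ≤ 4 * (e * EN) := by
  set g := gR Mx o x1 s n y w with hgd
  have hg : ∀ x, 0 ≤ g x := fun x => Real.sqrt_nonneg _
  set D : ℕ → ℤ → ℝ := fun k x => if a k (ix k x) ∧ cnt a n k (ix k x) = c + 1 then Nx g n k x
    else 0 with hD
  have hD0 : ∀ k x, 0 ≤ D k x := by
    intro k x
    simp only [hD]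
    split_ifs
    · exact Nx_nonneg g n k x
    · exact le_rfl
  have step1 : ∀ k ∈ range n, ∑ x0 ∈ iv n T, (if a k (ix k x0) ∧ cnt a n k (ix k x0) = c + 1 then
      W k x0 * nsq (Rm Mx o x1 s n (φ k) x0 y *ᵥ w) else 0) ≤ e * ∑ x0 ∈ iv n T, D k x0 := by
    intro k hk
    rw [mem_range] at hk
    obtain ⟨p1, p2⟩ := hφ k hk
    refine le_trans (sum_le_sum fun x0 _ => ?_) (sum_W_cell hk.le (hW k hk.le) T (hD0 k) ?_)
    · simp only [hD]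
      split_ifs
      · exact mul_le_mul_of_nonneg_left (Rm_le_Nx p1 p2 x0 y w) (hW0 k x0)
      · rw [mul_zero]
    · intro x z h
      simp only [hD]
      rw [h, Nx_congr h]
  refine (sum_le_sum step1).trans ?_
  rw [← mul_sum, sum_comm]
  have h2 : ∀ x0 ∈ iv n T, ∑ k ∈ range n, D k x0 ≤ Nx g n 0 x0 := by
    intro x0 _
    by_cases hex : ∃ k ∈ range n, a k (ix k x0) ∧ cnt a n k (ix k x0) = c + 1
    · obtain ⟨k, hk, h1, h2⟩ := hex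
      rw [mem_range] at hk
      have huniq : ∀ j ∈ range n, j ≠ k → ¬ (a j (ix j x0) ∧ cnt a n j (ix j x0) = c + 1) := by
        rintro j hj hjk ⟨h3, h4⟩
        rw [mem_range] at hj
        rcases lt_or_gt_of_ne hjk with h | h
        · have h5 := cnt_step a hj x0 h3
          have h6 := cnt_anti a n x0 (k := j + 1) (j := k) h
          omega
        · have h5 := cnt_step a hk x0 h1
          have h6 := cnt_anti a n x0 (k := k + 1) (j := j) h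
          omega
      have hz : ∀ j ∈ range n, j ≠ k → D j x0 = 0 := fun j hj hjk => if_neg (huniq j hj hjk)
      rw [sum_eq_single_of_mem k (mem_range.2 hk) hz]
      have hk1 : D k x0 = Nx g n k x0 := if_pos ⟨h1, h2⟩
      rw [hk1]
      exact Nx_le hg x0 (Nat.zero_le k)
    · rw [sum_eq_zero]
      · exact Nx_nonneg g n 0 x0
      · intro k hk
        exact if_neg fun h => hex ⟨k, hk, h⟩
  have h3 := (sum_le_sum h2).trans (sum_NxE (Mx := Mx) (x1 := x1) (T := T) y w hE)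
  have h4 := mul_le_mul_of_nonneg_left h3 he
  linarith

/-- **The head of the affected mass, slot of a coarser scale, any energy at the end.** -/
theorem stop_upE (W : ℕ → ℤ → ℝ) {e : ℝ} (hW0 : ∀ k x, 0 ≤ W k x)
    (hW : ∀ k ≤ n, ∀ j, ∑ x ∈ iv k j, W k x ≤ e * 2 ^ k) (a : ℕ → ℤ → Prop) (y : ℤ) (w : ι → ℝ)
    {EN : ℝ} (hE : ∑ x0 ∈ iv n T, nsq (Rm Mx o x1 s n 0 x0 y *ᵥ w) ≤ EN) (φ : ℕ → ℕ)
    (hφ : ∀ k < n, k ≤ φ k ∧ φ k ≤ n) (lam : ℕ) :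
    ∑ k ∈ range n, ∑ x0 ∈ iv n T, (if a k (ix k x0) ∧ cnt a n k (ix k x0) ≤ lam then
      W k x0 * nsq (Rm Mx o x1 s n (φ k) x0 y *ᵥ w) else 0) ≤ lam * (4 * (e * EN)) := by
  have he : 0 ≤ e := by
    have h3 := (sum_nonneg fun x _ => hW0 0 x).trans (hW 0 (Nat.zero_le _) 0)
    simpa using h3
  have h1 : ∀ k ∈ range n, ∑ x0 ∈ iv n T, (if a k (ix k x0) ∧ cnt a n k (ix k x0) ≤ lam then
      W k x0 * nsq (Rm Mx o x1 s n (φ k) x0 y *ᵥ w) else 0) ≤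
      ∑ x0 ∈ iv n T, ∑ c ∈ range lam, (if a k (ix k x0) ∧ cnt a n k (ix k x0) = c + 1 then
      W k x0 * nsq (Rm Mx o x1 s n (φ k) x0 y *ᵥ w) else 0) := by
    intro k hk
    rw [mem_range] at hk
    refine sum_le_sum fun x0 _ => ?_
    have hn : ∀ c ∈ range lam, 0 ≤ (if a k (ix k x0) ∧ cnt a n k (ix k x0) = c + 1 then
      W k x0 * nsq (Rm Mx o x1 s n (φ k) x0 y *ᵥ w) else 0) := by
      intro c _
      split_ifs
      · exact mul_nonneg (hW0 _ _) (nsq_nonneg _)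
      · exact le_rfl
    split_ifs with h
    · have h5 := cnt_step a hk x0 h.1
      have hc : cnt a n (k + 1) (ix (k + 1) x0) ∈ range lam := by
        rw [mem_range]
        omega
      refine le_trans (le_of_eq ?_) (single_le_sum hn hc)
      rw [if_pos ⟨h.1, h5⟩]
    · exact sum_nonneg hn
  refine (sum_le_sum h1).trans ?_
  have h2 : ∑ k ∈ range n, ∑ x0 ∈ iv n T, ∑ c ∈ range lam,
      (if a k (ix k x0) ∧ cnt a n k (ix k x0) = c + 1 then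
      W k x0 * nsq (Rm Mx o x1 s n (φ k) x0 y *ᵥ w) else 0) =
      ∑ c ∈ range lam, ∑ k ∈ range n, ∑ x0 ∈ iv n T,
      (if a k (ix k x0) ∧ cnt a n k (ix k x0) = c + 1 then
      W k x0 * nsq (Rm Mx o x1 s n (φ k) x0 y *ᵥ w) else 0) := by
    rw [sum_comm]
    rw [sum_congr rfl fun x0 _ => sum_comm]
    rw [sum_comm]
    refine sum_congr rfl fun c _ => ?_
    rw [sum_comm]
  rw [h2]
  refine (sum_le_sum fun c _ => stop_up_oneE W he hW0 hW a y w hE φ hφ c).trans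
    (le_of_eq ?_)
  rw [sum_const, card_range, nsmul_eq_mul]

/-- **The affected mass with the slot of the scale `k + 1 + l`**, any energy `EN` at the end. -/
theorem aff_line_upE {W : ℕ → ℤ → ℤ → ℝ} {e : ℝ} (hW0 : ∀ k x0 y, 0 ≤ W k x0 y)
    (hW : ∀ k ≤ n, ∀ j y, ∑ x0 ∈ iv k j, W k x0 y ≤ e * 2 ^ k) (v : ℤ → ι → ℝ) {EN : ℤ → ℝ}
    (hE : ∀ y ∈ iv n M3, ∑ x0 ∈ iv n T, nsq (Rm Mx o x1 s n 0 x0 y *ᵥ v y) ≤ EN y) (sh : ℤ) (l : ℕ)
    (AF : ℕ → ℤ → ℤ → Prop) (lam : ℕ) {DS TM : ℝ}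
    (hD : ∑ y ∈ iv n M3, ∑ k ∈ range (n - l), ∑ x0 ∈ iv n T, W k x0 y *
        nsq ((Rs Mx o x1 s n sh (k + 1 + l) x0 (ix (k + 1 + l) (y - sh)) -
          Rm Mx o x1 s n (k + 1 + l) x0 y) *ᵥ v y) ≤ DS)
    (hT : ∑ k ∈ range (n - l), ∑ x0 ∈ iv n T, ∑ y ∈ iv n M3,
      (if AF k (ix k x0) y ∧ lam < cnt (fun k q => AF k q y) n k (ix k x0) then W k x0 y *
        nsq (Rs Mx o x1 s n sh (k + 1 + l) x0 (ix (k + 1 + l) (y - sh)) *ᵥ v y) else 0) ≤ TM) :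
    ∑ k ∈ range (n - l), ∑ x0 ∈ iv n T, ∑ y ∈ iv n M3, (if AF k (ix k x0) y then W k x0 y *
        nsq (Rs Mx o x1 s n sh (k + 1 + l) x0 (ix (k + 1 + l) (y - sh)) *ᵥ v y) else 0) ≤
      2 * DS + 2 * (lam * (4 * (e * ∑ y ∈ iv n M3, EN y))) + TM := by
  -- the head
  have hH : ∑ k ∈ range (n - l), ∑ x0 ∈ iv n T, ∑ y ∈ iv n M3,
      (if AF k (ix k x0) y ∧ cnt (fun k q => AF k q y) n k (ix k x0) ≤ lam then W k x0 y *
        nsq (Rm Mx o x1 s n (k + 1 + l) x0 y *ᵥ v y) else 0) ≤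
      lam * (4 * (e * ∑ y ∈ iv n M3, EN y)) := by
    have h1 : ∀ y ∈ iv n M3, ∑ k ∈ range (n - l), ∑ x0 ∈ iv n T,
        (if AF k (ix k x0) y ∧ cnt (fun k q => AF k q y) n k (ix k x0) ≤ lam then W k x0 y *
          nsq (Rm Mx o x1 s n (k + 1 + l) x0 y *ᵥ v y) else 0) ≤
        lam * (4 * (e * EN y)) := by
      intro y hy
      have h2 := stop_upE (Mx := Mx) (x1 := x1) (T := T) (fun k x => W k x y)
        (fun k x => hW0 k x y) (fun k hk j => hW k hk j y) (fun k q => AF k q y) y (v y) (hE y hy)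
        (fun k => min (k + 1 + l) n) (fun k hk => ⟨by omega, by omega⟩) lam
      beta_reduce at h2
      refine le_trans ?_ h2
      have e1 : ∀ k ∈ range (n - l), ∑ x0 ∈ iv n T,
          (if AF k (ix k x0) y ∧ cnt (fun k q => AF k q y) n k (ix k x0) ≤ lam then W k x0 y *
            nsq (Rm Mx o x1 s n (k + 1 + l) x0 y *ᵥ v y) else 0) =
          ∑ x0 ∈ iv n T,
          (if AF k (ix k x0) y ∧ cnt (fun k q => AF k q y) n k (ix k x0) ≤ lam then W k x0 y *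
            nsq (Rm Mx o x1 s n (min (k + 1 + l) n) x0 y *ᵥ v y) else 0) := by
        intro k hk
        rw [mem_range] at hk
        rw [min_eq_left (by omega)]
      rw [sum_congr rfl e1]
      refine sum_le_sum_of_subset_of_nonneg (fun k hk => ?_) fun k _ _ =>
        sum_nonneg fun x0 _ => ?_
      · rw [mem_range] at hk ⊢
        omega
      · split_ifs
        · exact mul_nonneg (hW0 _ _ _) (nsq_nonneg _)
        · exact le_rfl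
    have h4 : ∑ k ∈ range (n - l), ∑ x0 ∈ iv n T, ∑ y ∈ iv n M3,
        (if AF k (ix k x0) y ∧ cnt (fun k q => AF k q y) n k (ix k x0) ≤ lam then W k x0 y *
          nsq (Rm Mx o x1 s n (k + 1 + l) x0 y *ᵥ v y) else 0) =
        ∑ y ∈ iv n M3, ∑ k ∈ range (n - l), ∑ x0 ∈ iv n T,
        (if AF k (ix k x0) y ∧ cnt (fun k q => AF k q y) n k (ix k x0) ≤ lam then W k x0 y *
          nsq (Rm Mx o x1 s n (k + 1 + l) x0 y *ᵥ v y) else 0) := by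
      rw [sum_congr rfl fun k _ => sum_comm, sum_comm]
    rw [h4]
    refine (sum_le_sum h1).trans (le_of_eq ?_)
    simp only [← mul_sum]
  have hD' : ∑ k ∈ range (n - l), ∑ x0 ∈ iv n T, ∑ y ∈ iv n M3, W k x0 y *
        nsq ((Rs Mx o x1 s n sh (k + 1 + l) x0 (ix (k + 1 + l) (y - sh)) -
          Rm Mx o x1 s n (k + 1 + l) x0 y) *ᵥ v y) ≤ DS := by
    refine le_trans (le_of_eq ?_) hD
    rw [sum_congr rfl fun k _ => sum_comm, sum_comm]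
  have hp : ∀ k x0 y, (if AF k (ix k x0) y then W k x0 y *
        nsq (Rs Mx o x1 s n sh (k + 1 + l) x0 (ix (k + 1 + l) (y - sh)) *ᵥ v y) else 0) ≤
      2 * (W k x0 y * nsq ((Rs Mx o x1 s n sh (k + 1 + l) x0 (ix (k + 1 + l) (y - sh)) -
          Rm Mx o x1 s n (k + 1 + l) x0 y) *ᵥ v y)) +
      2 * (if AF k (ix k x0) y ∧ cnt (fun k q => AF k q y) n k (ix k x0) ≤ lam then W k x0 y *
        nsq (Rm Mx o x1 s n (k + 1 + l) x0 y *ᵥ v y) else 0) +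
      (if AF k (ix k x0) y ∧ lam < cnt (fun k q => AF k q y) n k (ix k x0) then W k x0 y *
        nsq (Rs Mx o x1 s n sh (k + 1 + l) x0 (ix (k + 1 + l) (y - sh)) *ᵥ v y) else 0) := by
    intro k x0 y
    have hw := hW0 k x0 y
    have n1 := nsq_nonneg ((Rs Mx o x1 s n sh (k + 1 + l) x0 (ix (k + 1 + l) (y - sh)) -
          Rm Mx o x1 s n (k + 1 + l) x0 y) *ᵥ v y)
    have n2 := nsq_nonneg (Rm Mx o x1 s n (k + 1 + l) x0 y *ᵥ v y)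
    have h3 := nsq_add_le
      ((Rs Mx o x1 s n sh (k + 1 + l) x0 (ix (k + 1 + l) (y - sh)) -
        Rm Mx o x1 s n (k + 1 + l) x0 y) *ᵥ v y) (Rm Mx o x1 s n (k + 1 + l) x0 y *ᵥ v y)
    rw [← add_mulVec, sub_add_cancel] at h3
    have h4 := mul_le_mul_of_nonneg_left h3 hw
    have m1 := mul_nonneg hw n1
    have m2 := mul_nonneg hw n2
    by_cases ha : AF k (ix k x0) y
    · rcases le_or_gt (cnt (fun k q => AF k q y) n k (ix k x0)) lam with hc | hc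
      · rw [if_pos ha, if_pos ⟨ha, hc⟩, if_neg fun h => absurd h.2 (not_lt.2 hc)]
        linarith
      · rw [if_pos ha, if_neg fun h => absurd h.2 (not_le.2 hc), if_pos ⟨ha, hc⟩]
        linarith
    · rw [if_neg ha, if_neg fun h => ha h.1, if_neg fun h => ha h.1]
      linarith
  refine (sum_le_sum fun k _ => sum_le_sum fun x0 _ => sum_le_sum fun y _ => hp k x0 y).trans ?_
  simp only [sum_add_distrib, ← mul_sum]
  linarith

/-- **The tail of every lag from one static mass.** -/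
theorem tail_up {W : ℕ → ℤ → ℤ → ℝ} (hW0 : ∀ k x0 y, 0 ≤ W k x0 y) (v : ℤ → ι → ℝ) {c : ℝ}
    (hc : 0 ≤ c) (hcap : ∀ y ∈ iv n M3, ∀ x0 p, nsq (Rm Mx o x1 s n 0 x0 p *ᵥ v y) ≤ c * nsq (v y))
    (sh : ℤ) (l : ℕ) (AF : ℕ → ℤ → ℤ → Prop) (lam : ℕ) :
    ∑ k ∈ range (n - l), ∑ x0 ∈ iv n T, ∑ y ∈ iv n M3,
      (if AF k (ix k x0) y ∧ lam < cnt (fun k q => AF k q y) n k (ix k x0) then W k x0 y *
        nsq (Rs Mx o x1 s n sh (k + 1 + l) x0 (ix (k + 1 + l) (y - sh)) *ᵥ v y) else 0) ≤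
      c * ∑ k ∈ range n, ∑ x0 ∈ iv n T, ∑ y ∈ iv n M3,
        (if AF k (ix k x0) y ∧ lam < cnt (fun k q => AF k q y) n k (ix k x0) then
          W k x0 y * nsq (v y) else 0) := by
  have h0 : ∀ k x0 y, 0 ≤ (if AF k (ix k x0) y ∧ lam < cnt (fun k q => AF k q y) n k (ix k x0) then
          W k x0 y * nsq (v y) else 0) := by
    intro k x0 y
    split_ifs
    · exact mul_nonneg (hW0 _ _ _) (nsq_nonneg _)
    · exact le_rfl
  have h1 : ∑ k ∈ range (n - l), ∑ x0 ∈ iv n T, ∑ y ∈ iv n M3,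
      (if AF k (ix k x0) y ∧ lam < cnt (fun k q => AF k q y) n k (ix k x0) then
          W k x0 y * nsq (v y) else 0) ≤ ∑ k ∈ range n, ∑ x0 ∈ iv n T, ∑ y ∈ iv n M3,
        (if AF k (ix k x0) y ∧ lam < cnt (fun k q => AF k q y) n k (ix k x0) then
          W k x0 y * nsq (v y) else 0) :=
    sum_le_sum_of_subset_of_nonneg (fun k hk => by
      rw [mem_range] at hk ⊢
      omega) fun k _ _ => sum_nonneg fun x0 _ => sum_nonneg fun y _ => h0 k x0 y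
  refine le_trans ?_ (mul_le_mul_of_nonneg_left h1 hc)
  simp only [mul_sum]
  refine sum_le_sum fun k _ => sum_le_sum fun x0 _ => sum_le_sum fun y hy => ?_
  split_ifs
  · have h2 := H550.Rs_cap (Mx := Mx) (o := o) (x1 := x1) (s := s) (n := n) (x0 := x0)
      (c := c * nsq (v y)) (w := v y) sh (k + 1 + l) (ix (k + 1 + l) (y - sh))
      fun p _ => hcap y hy x0 (p + sh)
    have h3 := mul_le_mul_of_nonneg_left h2 (hW0 k x0 y)
    linarith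
  · rw [mul_zero]

end

end Vale.Agent.P141.H124
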