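import Vale.Agent.P141.H124.LagN

/-!
# P141, line (A): hub `x₁`, the numbers of every lag in the letters of `H38.PR.stkQR`

Slot `Rx`, move `Dx` of `H483.QSh`, translated family `shC`.

* `mvoX` : hypothesis `hM` of `stkQR`;
* `lag_H`, `lag_O`, `lag_M` : hypotheses `hH`, `hQo`, `hQm`, summed over `x₀`.
-/

namespace Vale.Agent.P141.H124

open Finset Matrix
open Vale.Agent.P141.PL (Pt iv hs ix mem_iv ix_ix)
open Vale.Agent.P141.H43 (nsq nsq_nonneg)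
open Vale.Agent.P141.H747 (sft shC)
open Vale.Agent.P141.H483 (Rx Dx YR)
open Vale.Agent.P141.H297.Ch (es em Mvo es_nonneg em_nonneg)
open Vale.Agent.P141.H871 (cnt)
open Vale.Agent.P141.H876 (En wn S1)

noncomputable section

open scoped Classical

set_option linter.unusedSectionVars false

variable {ι : Type} [Fintype ι] [DecidableEq ι]

theorem sumsq (w : ι → ℝ) : ∑ i, w i ^ 2 = nsq w := by
  unfold H43.nsq dotProduct
  exact sum_congr rfl fun i _ => by ring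

/-- the slot, letters of `H38` -/
def Ra (Mx : ℤ → ℕ → ℤ → Matrix ι ι ℝ) (o : ℤ) (sx : ℤ → ℕ → ℤ → ℤ → ℝ) (K : ℕ) (s : Pt) (x0 : ℤ)
    (a : ℕ) (x n : ℤ) : Matrix ι ι ℝ := Rx Mx o sx K s.2.2 s.1 x0 a n x

/-- the move, letters of `H38` -/
def Da (Mx : ℤ → ℕ → ℤ → Matrix ι ι ℝ) (o : ℤ) (sx : ℤ → ℕ → ℤ → ℤ → ℝ) (K : ℕ) (s : Pt) (x0 : ℤ)
    (a : ℕ) (x n : ℤ) : Matrix ι ι ℝ := Dx Mx o sx K s.2.2 s.1 x0 a n x

/-- the translated family, letters of `H38` -/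
def ca (K : ℕ) (M s : Pt) (C : ℕ → ℤ → ℤ → ι → ℝ) (k : ℕ) (x z : ℤ) : ι → ℝ := shC K M s C k z x

variable {Mx : ℤ → ℕ → ℤ → Matrix ι ι ℝ} {o : ℤ} {sx : ℤ → ℕ → ℤ → ℤ → ℝ} {K : ℕ}

/-- **`hM` of `stkQR`** -/
theorem mvoX (s : Pt) (x0 : ℤ) (a : ℕ) :
    Mvo (Ra Mx o sx K s x0 a) (Ra Mx o sx K s x0 (a + 1)) (Da Mx o sx K s x0 (a + 1)) :=
  fun _ _ => ⟨H483.Rx_left _ _ _ _ _ _, H483.Rx_right _ _ _ _ _ _⟩

theorem es_eq (r : ℝ) (s : Pt) (x0 : ℤ) (a : ℕ) (c : ℤ → ℤ → ι → ℝ) (x z : ℤ) :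
    es r (Ra Mx o sx K s x0 a) a c x z = r ^ 2 * nsq (c x z) +
      nsq (YR Mx o sx K s.2.2 x0 a (z + s.2.2) (x + s.1) *ᵥ c x z) := by
  unfold H297.Ch.es Ra
  rw [sumsq, sumsq, H483.Rx_YR]

theorem em_eq (hM : ∀ x k m, (Mx x k m)ᵀ = Mx x k m) (r : ℝ) (s : Pt) (x0 : ℤ) (a : ℕ)
    (c : ℤ → ℤ → ι → ℝ) (x z : ℤ) :
    em r (Ra Mx o sx K s x0 (a + 1)) (Da Mx o sx K s x0 (a + 1)) (a + 1) c x z =
      nsq ((YR Mx o sx K s.2.2 x0 a (z + s.2.2) (x + s.1) -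
        YR Mx o sx K s.2.2 x0 (a + 1) (z + s.2.2) (x + s.1)) *ᵥ c x z) + (r ^ 2)⁻¹ *
      nsq ((YR Mx o sx K s.2.2 x0 a (z + s.2.2) (x + s.1) -
        YR Mx o sx K s.2.2 x0 (a + 1) (z + s.2.2) (x + s.1)) *ᵥ
        (YR Mx o sx K s.2.2 x0 (a + 1) (z + s.2.2) (x + s.1) *ᵥ c x z)) := by
  unfold H297.Ch.em Ra Da
  rw [sumsq, sumsq, H483.Dx_symm hM, H483.nsq_Dx, H483.nsq_Dx, H483.Rx_YR]

/-- change of variables and order of the sums -/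
theorem gen_sum (M s : Pt) (R1 R3 : ℤ) (X : Finset ℤ) (S : Finset ℕ) (C : ℤ → ℕ → ℤ → ℤ → ι → ℝ)
    (τ : ℕ → ℕ) (G : ℤ → ℕ → ℤ → ℤ → (ι → ℝ) → ℝ) (hG0 : ∀ x0 k z x, G x0 k z x 0 = 0)
    (hG : ∀ x0 k z x w, 0 ≤ G x0 k z x w) :
    ∑ x0 ∈ X, ∑ k ∈ S, ∑ x ∈ iv K R1, ∑ z ∈ iv K R3,
        G x0 k (z + s.2.2) (x + s.1) (shC K M s (C x0) (τ k) z x) ≤
      ∑ x ∈ iv K M.1, ∑ z ∈ iv K M.2.2, ∑ k ∈ S, ∑ x0 ∈ X, G x0 k z x (C x0 (τ k) z x) := by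
  refine (sum_le_sum fun x0 _ => sum_le_sum fun k _ =>
    H483.sum_shC (K := K) M s R1 R3 (C x0) (τ k) (G x0 k) (hG0 x0 k) (hG x0 k)).trans
    (le_of_eq ?_)
  exact H483.sum4 _

theorem nsq_Cv {C : ℤ → ℕ → ℤ → ℤ → ι → ℝ} {φ : ℤ → ℕ → ℤ → ℤ → ℝ} {v : ℤ → ℤ → ι → ℝ}
    (hC : ∀ x0 k z x, C x0 k z x = φ x0 k z x • v x z) (x0 : ℤ) (k : ℕ) (z x : ℤ)
    (Y : Matrix ι ι ℝ) : nsq (Y *ᵥ C x0 k z x) = φ x0 k z x ^ 2 * nsq (Y *ᵥ v x z) := by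
  rw [hC, mulVec_smul, H841.nsq_smul]

theorem nsq_C {C : ℤ → ℕ → ℤ → ℤ → ι → ℝ} {φ : ℤ → ℕ → ℤ → ℤ → ℝ} {v : ℤ → ℤ → ι → ℝ}
    (hC : ∀ x0 k z x, C x0 k z x = φ x0 k z x • v x z) (x0 : ℤ) (k : ℕ) (z x : ℤ) :
    nsq (C x0 k z x) = φ x0 k z x ^ 2 * nsq (v x z) := by
  rw [hC, H841.nsq_smul]

variable {C : ℤ → ℕ → ℤ → ℤ → ι → ℝ} {φ : ℤ → ℕ → ℤ → ℤ → ℝ} {v : ℤ → ℤ → ι → ℝ}

/-- **`hH` of `stkQR`**, summed over `x₀`: slot of the scale `a`, family of the time `k`. -/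
theorem lag_H (M s : Pt) (R1 R3 : ℤ) (X : Finset ℤ)
    (hC : ∀ x0 k z x, C x0 k z x = φ x0 k z x • v x z) (r : ℝ) (a k : ℕ) {A : ℝ} {B : ℤ → ℝ}
    (hA : ∑ x ∈ iv K M.1, ∑ z ∈ iv K M.2.2, ∑ x0 ∈ X, φ x0 k z x ^ 2 * nsq (v x z) ≤ A)
    (hB : ∀ x ∈ iv K M.1, ∑ z ∈ iv K M.2.2, ∑ x0 ∈ X, φ x0 k z x ^ 2 *
      nsq (H841.Rs (Mx x) o x (sx x) K s.2.2 a x0 (ix a (z - s.2.2)) *ᵥ v x z) ≤ B x) :
    ∑ x0 ∈ X, H38.PR.enO K R1 R3 r (Ra Mx o sx K s x0) a (ca K M s (C x0) k) ≤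
      r ^ 2 * A + ∑ x ∈ iv K M.1, B x := by
  have h := gen_sum (K := K) M s R1 R3 X {0} C (fun _ => k)
    (fun x0 _ z x w => r ^ 2 * nsq w + nsq (YR Mx o sx K s.2.2 x0 a z x *ᵥ w))
    (fun x0 _ z x => by simp only [mulVec_zero, H841.nsq_zero, mul_zero, add_zero])
    (fun x0 _ z x w => add_nonneg (mul_nonneg (sq_nonneg _) (nsq_nonneg _)) (nsq_nonneg _))
  simp only [sum_singleton] at h
  refine le_trans (le_of_eq ?_) (h.trans ?_)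
  · refine sum_congr rfl fun x0 _ => ?_
    unfold H38.PR.enO
    refine sum_congr rfl fun x _ => sum_congr rfl fun z _ => ?_
    rw [es_eq]
    rfl
  · simp only [nsq_Cv hC, nsq_C hC, sum_add_distrib, ← mul_sum]
    refine add_le_add (mul_le_mul_of_nonneg_left hA (sq_nonneg r)) (sum_le_sum fun x hx => ?_)
    exact hB x hx

/-- **`hQo` of `stkQR`**, summed over `x₀`, every lag `l`. -/
theorem lag_O (hM : ∀ x k m, (Mx x k m)ᵀ = Mx x k m) (M s : Pt) (R1 R3 : ℤ) (X : Finset ℤ)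
    (hC : ∀ x0 k z x, C x0 k z x = φ x0 k z x • v x z) (r : ℝ) (k₀ l : ℕ) {B B' : ℤ → ℝ}
    (hB : ∀ x ∈ iv K M.1, ∑ z ∈ iv K M.2.2, ∑ k ∈ range (K - l), ∑ x0 ∈ X, φ x0 k z x ^ 2 *
      nsq ((H841.Rs (Mx x) o x (sx x) K s.2.2 (k + l) x0 (ix (k + l) (z - s.2.2)) -
        H841.Rs (Mx x) o x (sx x) K s.2.2 (k + l + 1) x0 (ix (k + l + 1) (z - s.2.2))) *ᵥ
        v x z) ≤ B x)
    (hB' : ∀ x ∈ iv K M.1, ∑ z ∈ iv K M.2.2, ∑ k ∈ range (K - l), ∑ x0 ∈ X, φ x0 k z x ^ 2 *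
      nsq ((H841.Rs (Mx x) o x (sx x) K s.2.2 (k + l) x0 (ix (k + l) (z - s.2.2)) -
        H841.Rs (Mx x) o x (sx x) K s.2.2 (k + l + 1) x0 (ix (k + l + 1) (z - s.2.2))) *ᵥ
        (H841.Rs (Mx x) o x (sx x) K s.2.2 (k + l + 1) x0 (ix (k + l + 1) (z - s.2.2)) *ᵥ
          v x z)) ≤ B' x) :
    ∑ x0 ∈ X, ∑ k ∈ Ico k₀ (K - l), ∑ x ∈ iv K R1, ∑ z ∈ iv K R3,
        em r (Ra Mx o sx K s x0 (k + l + 1)) (Da Mx o sx K s x0 (k + l + 1)) (k + l + 1)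
          (ca K M s (C x0) k) x z ≤
      ∑ x ∈ iv K M.1, B x + (r ^ 2)⁻¹ * ∑ x ∈ iv K M.1, B' x := by
  have hr : 0 ≤ (r ^ 2)⁻¹ := inv_nonneg.2 (sq_nonneg r)
  have h := gen_sum (K := K) M s R1 R3 X (range (K - l)) C (fun k => k)
    (fun x0 k z x w => nsq ((YR Mx o sx K s.2.2 x0 (k + l) z x -
        YR Mx o sx K s.2.2 x0 (k + l + 1) z x) *ᵥ w) + (r ^ 2)⁻¹ *
      nsq ((YR Mx o sx K s.2.2 x0 (k + l) z x - YR Mx o sx K s.2.2 x0 (k + l + 1) z x) *ᵥ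
        (YR Mx o sx K s.2.2 x0 (k + l + 1) z x *ᵥ w)))
    (fun x0 k z x => by simp only [mulVec_zero, H841.nsq_zero, mul_zero, add_zero])
    (fun x0 k z x w => add_nonneg (nsq_nonneg _) (mul_nonneg hr (nsq_nonneg _)))
  have h2 : ∑ x0 ∈ X, ∑ k ∈ Ico k₀ (K - l), ∑ x ∈ iv K R1, ∑ z ∈ iv K R3,
        em r (Ra Mx o sx K s x0 (k + l + 1)) (Da Mx o sx K s x0 (k + l + 1)) (k + l + 1)
          (ca K M s (C x0) k) x z ≤
      ∑ x0 ∈ X, ∑ k ∈ range (K - l), ∑ x ∈ iv K R1, ∑ z ∈ iv K R3,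
        em r (Ra Mx o sx K s x0 (k + l + 1)) (Da Mx o sx K s x0 (k + l + 1)) (k + l + 1)
          (ca K M s (C x0) k) x z := by
    refine sum_le_sum fun x0 _ => sum_le_sum_of_subset_of_nonneg (fun k hk => ?_) fun k _ _ =>
      sum_nonneg fun x _ => sum_nonneg fun z _ => em_nonneg _ _ _ _ _ _ _
    rw [mem_Ico] at hk
    rw [mem_range]
    exact hk.2
  refine h2.trans (le_trans (le_of_eq ?_) (h.trans ?_))
  · refine sum_congr rfl fun x0 _ => sum_congr rfl fun k _ => sum_congr rfl fun x _ =>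
      sum_congr rfl fun z _ => ?_
    rw [em_eq hM]
    rfl
  · have e1 : ∀ x0 k z x, ∀ Y Z : Matrix ι ι ℝ, nsq (Y *ᵥ (Z *ᵥ C x0 k z x)) =
        φ x0 k z x ^ 2 * nsq (Y *ᵥ (Z *ᵥ v x z)) := by
      intro x0 k z x Y Z
      rw [hC, mulVec_smul, mulVec_smul, H841.nsq_smul]
    simp only [nsq_Cv hC, e1, sum_add_distrib, ← mul_sum]
    exact add_le_add (sum_le_sum fun x hx => hB x hx)
      (mul_le_mul_of_nonneg_left (sum_le_sum fun x hx => hB' x hx) hr)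

/-- **`hQm` of `stkQR`**, summed over `x₀`, every lag `l`. `AF x₁ k (cell of x₀) x₃`, original
coordinates, contains the affected rows. -/
theorem lag_M (M s : Pt) (R1 R3 : ℤ) (X : Finset ℤ)
    (hC : ∀ x0 k z x, C x0 k z x = φ x0 k z x • v x z) (r : ℝ) (k₀ l : ℕ)
    (AF : ℤ → ℕ → ℤ → ℤ → Prop)
    (hAF : ∀ x0 ∈ X, ∀ k < K, ∀ x z, H38.Q.AfC k (ca K M s (C x0) k) (ca K M s (C x0) (k + 1))
      (ix k x) z → ca K M s (C x0) (k + 1) x z ≠ 0 → AF (x + s.1) k (ix k x0) (z + s.2.2))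
    {A : ℝ} {B : ℤ → ℝ}
    (hA : ∑ x ∈ iv K M.1, ∑ z ∈ iv K M.2.2, ∑ k ∈ range K, ∑ x0 ∈ X,
      (if AF x k (ix k x0) z then φ x0 (k + 1) z x ^ 2 * nsq (v x z) else 0) ≤ A)
    (hB : ∀ x ∈ iv K M.1, ∑ z ∈ iv K M.2.2, ∑ k ∈ range (K - l), ∑ x0 ∈ X,
      (if AF x k (ix k x0) z then φ x0 (k + 1) z x ^ 2 *
        nsq (H841.Rs (Mx x) o x (sx x) K s.2.2 (k + 1 + l) x0 (ix (k + 1 + l) (z - s.2.2)) *ᵥ
          v x z) else 0) ≤ B x) :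
    ∑ x0 ∈ X, ∑ k ∈ Ico k₀ (K - l), ∑ x ∈ iv K R1, ∑ z ∈ iv K R3,
        es r (Ra Mx o sx K s x0 (k + 1 + l)) (k + 1 + l)
          (H38.Q.bP k (ca K M s (C x0) k) (ca K M s (C x0) (k + 1))) x z ≤
      r ^ 2 * A + ∑ x ∈ iv K M.1, B x := by
  have h := gen_sum (K := K) M s R1 R3 X (range (K - l)) C (fun k => k + 1)
    (fun x0 k z x w => if AF x k (ix k x0) z then r ^ 2 * nsq w +
      nsq (YR Mx o sx K s.2.2 x0 (k + 1 + l) z x *ᵥ w) else 0)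
    (fun x0 k z x => by simp only [mulVec_zero, H841.nsq_zero, mul_zero, add_zero, ite_self])
    (fun x0 k z x w => by
      split_ifs
      · exact add_nonneg (mul_nonneg (sq_nonneg _) (nsq_nonneg _)) (nsq_nonneg _)
      · exact le_rfl)
  have h2 : ∑ x0 ∈ X, ∑ k ∈ Ico k₀ (K - l), ∑ x ∈ iv K R1, ∑ z ∈ iv K R3,
        es r (Ra Mx o sx K s x0 (k + 1 + l)) (k + 1 + l)
          (H38.Q.bP k (ca K M s (C x0) k) (ca K M s (C x0) (k + 1))) x z ≤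
      ∑ x0 ∈ X, ∑ k ∈ range (K - l), ∑ x ∈ iv K R1, ∑ z ∈ iv K R3,
        es r (Ra Mx o sx K s x0 (k + 1 + l)) (k + 1 + l)
          (H38.Q.bP k (ca K M s (C x0) k) (ca K M s (C x0) (k + 1))) x z := by
    refine sum_le_sum fun x0 _ => sum_le_sum_of_subset_of_nonneg (fun k hk => ?_) fun k _ _ =>
      sum_nonneg fun x _ => sum_nonneg fun z _ => es_nonneg _ _ _ _ _ _
    rw [mem_Ico] at hk
    rw [mem_range]
    exact hk.2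
  refine h2.trans (le_trans ?_ (h.trans ?_))
  · refine sum_le_sum fun x0 hx0 => sum_le_sum fun k hk => sum_le_sum fun x _ =>
      sum_le_sum fun z _ => ?_
    rw [mem_range] at hk
    rw [es_eq]
    unfold H38.Q.bP
    by_cases hf : H38.Q.AfC k (ca K M s (C x0) k) (ca K M s (C x0) (k + 1)) (ix k x) z
    · by_cases h0 : ca K M s (C x0) (k + 1) x z = 0
      · rw [if_pos hf, h0]
        simp only [mulVec_zero, H841.nsq_zero, mul_zero, add_zero]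
        split_ifs
        · exact add_nonneg (mul_nonneg (sq_nonneg _) (nsq_nonneg _)) (nsq_nonneg _)
        · exact le_rfl
      · rw [if_pos hf, if_pos (hAF x0 hx0 k (by omega) x z hf h0)]
        exact le_rfl
    · rw [if_neg hf]
      simp only [mulVec_zero, H841.nsq_zero, mul_zero, add_zero]
      split_ifs
      · exact add_nonneg (mul_nonneg (sq_nonneg _) (nsq_nonneg _)) (nsq_nonneg _)
      · exact le_rfl
  · have e1 : ∀ x z k x0, (if AF x k (ix k x0) z then r ^ 2 * nsq (C x0 (k + 1) z x) +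
        nsq (YR Mx o sx K s.2.2 x0 (k + 1 + l) z x *ᵥ C x0 (k + 1) z x) else 0) =
        r ^ 2 * (if AF x k (ix k x0) z then φ x0 (k + 1) z x ^ 2 * nsq (v x z) else 0) +
        (if AF x k (ix k x0) z then φ x0 (k + 1) z x ^ 2 *
          nsq (YR Mx o sx K s.2.2 x0 (k + 1 + l) z x *ᵥ v x z) else 0) := by
      intro x z k x0
      split_ifs
      · rw [nsq_Cv hC, nsq_C hC]
      · rw [mul_zero, add_zero]
    simp only [e1, sum_add_distrib, ← mul_sum]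
    refine add_le_add (mul_le_mul_of_nonneg_left (le_trans ?_ hA) (sq_nonneg r))
      (sum_le_sum fun x hx => hB x hx)
    refine sum_le_sum fun x _ => sum_le_sum fun z _ => ?_
    refine sum_le_sum_of_subset_of_nonneg (fun k hk => ?_) fun k _ _ => sum_nonneg fun x0 _ => ?_
    · rw [mem_range] at hk ⊢
      omega
    · split_ifs
      · exact mul_nonneg (sq_nonneg _) (nsq_nonneg _)
      · exact le_rfl

end

end Vale.Agent.P141.H124
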